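import Mathlib
import Crest.Prelude.Def_ModularData

/-! R084 blueprint: exact statements of the lemmas (sorried; NOT to be imported by the final file). -/

set_option autoImplicit false

namespace Crest.Agent.R084.Blueprint

open Filter MeasureTheory Crest.OpAlg
open scoped Topology InnerProductSpace

/-- (K) smoothing kernel with scale-invariant `L¹` bound.  File: R084/Kernel.lean -/
theorem exists_kernel : ∃ C : ℝ, 0 < C ∧ ∀ (s δ : ℝ), 0 < δ →
    ∃ (g : ℝ → ℂ) (G : BoundedContinuousFunction ℝ ℂ),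
      Integrable g ∧ (∫ t, ‖g t‖) ≤ C ∧
      (∀ u : ℝ, G u = ∫ t, g t * Complex.exp (Complex.I * ((t * u : ℝ) : ℂ))) ∧
      (∀ u, ‖G u‖ ≤ 1) ∧
      (∀ u ∈ Set.Icc (s - δ) (s + δ), G u = 1) ∧
      (∀ u, u ∉ Set.Icc (s - 2 * δ) (s + 2 * δ) → G u = 0) := by
  sorry

variable {H : Type*} [NormedAddCommGroup H] [InnerProductSpace ℂ H] [CompleteSpace H]

/-- (T) truncation `v ↦ v r`, `r = (1 + v⋆v/K)⁻¹`.  File: R084/Trunc.lean -/
theorem exists_truncation (v : H →L[ℂ] H) (K : ℝ) (hK : 0 < K) :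
    ∃ r : H →L[ℂ] H,
      (∀ x' : H →L[ℂ] H, x' * v = v * x' → x' * star v = star v * x' → x' * r = r * x') ∧
      (∀ x, ‖v (r x)‖ ≤ Real.sqrt K * ‖x‖) ∧
      ∀ x, ‖v x - v (r x)‖ ≤ (1 / Real.sqrt K) * ‖star v (v x)‖ := by
  sorry

/-- (P) random phases (average over `c : ι → {1,i,-1,-i}`).  File: R084/Phases.lean -/
theorem exists_phases {ι : Type*} [Fintype ι] (a : ι → (H →L[ℂ] H)) (T : H →L[ℂ] H) (ξ : H)
    (μ : ℝ) (hμ : 0 ≤ μ) :
    ∃ c : ι → ℂ, (∀ i, ‖c i‖ = 1) ∧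
      (∑ i, ‖T (a i ξ)‖ ^ 2) - μ * (‖∑ i, star (a i) (a i ξ)‖ ^ 2 +
          ∑ i, ∑ j, ‖star (a j) (a i ξ)‖ ^ 2) ≤
        ‖T ((∑ i, c i • a i) ξ)‖ ^ 2 -
          μ * ‖star (∑ i, c i • a i) ((∑ i, c i • a i) ξ)‖ ^ 2 := by
  sorry

/-- (W) basic calculus facts. File: R084/Calc.lean (helper84) -/
theorem apply_norm_le (D : LineCalculus H) (f : BoundedContinuousFunction ℝ ℂ) :
    ‖D.apply f‖ ≤ ‖f‖ := by
  sorry

theorem wave_zero (D : LineCalculus H) : D.wave 0 = 1 := by sorry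
theorem wave_add (D : LineCalculus H) (s t : ℝ) : D.wave (s + t) = D.wave s * D.wave t := by sorry
theorem star_wave (D : LineCalculus H) (t : ℝ) : star (D.wave t) = D.wave (-t) := by sorry
theorem norm_wave (D : LineCalculus H) (t : ℝ) (x : H) : ‖D.wave t x‖ = ‖x‖ := by sorry
theorem continuous_wave (D : LineCalculus H) (y : ℝ → H) (hy : Continuous y) :
    Continuous fun t => D.wave t (y t) := by sorry

/-- `∫ g(t) e^{itD} x dt = ĝ(D) x` -/
theorem integral_wave (D : LineCalculus H) (g : ℝ → ℂ) (hg : Integrable g)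
    (G : BoundedContinuousFunction ℝ ℂ)
    (hG : ∀ u : ℝ, G u = ∫ t, g t * Complex.exp (Complex.I * ((t * u : ℝ) : ℂ))) (x : H) :
    ∫ t, g t • D.wave t x = D.apply G x := by sorry

/-- (V) the vacuum is fixed. File: R084/Vac.lean (helper84) -/
theorem wave_vac (S : ModularDatum H) (t : ℝ) : S.D.wave t S.vac = S.vac := by sorry

/-- (A) adjoint bound. File: R084/Vac.lean (helper84) -/
theorem norm_star_vac_le (S : ModularDatum H) (a : H →L[ℂ] H) (ha : a ∈ S.M) (p q : ℝ)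
    (hsupp : S.D.SupportedIn (Set.Icc p q) (a S.vac)) :
    ‖star a S.vac‖ ≤ Real.exp (q / 2) * ‖a S.vac‖ := by sorry

/-- (C) the commutant is cyclic. File: R084/Erg.lean (helper84) -/
theorem commutant_dense (S : ModularDatum H) (x : H) (ε : ℝ) (hε : 0 < ε) :
    ∃ x' : H →L[ℂ] H, (∀ a ∈ S.M, a * x' = x' * a) ∧ ‖x' S.vac - x‖ < ε := by sorry

/-- (S) smearing.  File: R084/Smear.lean (helper84) -/
theorem exists_smear (S : ModularDatum H) (g : ℝ → ℂ) (hg : Integrable g)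
    (b : H →L[ℂ] H) (hb : b ∈ S.M) :
    ∃ a : H →L[ℂ] H, a ∈ S.M ∧ ‖a‖ ≤ (∫ t, ‖g t‖) * ‖b‖ ∧
      ∀ x, a x = ∫ t, g t • S.flow t b x := by sorry

/-- (E) mean ergodic theorem.  File: R084/Erg.lean (helper84) -/
theorem mean_ergodic (S : ModularDatum H) (herg : S.Ergodic) (b : H →L[ℂ] H) (hb : b ∈ S.M) :
    Tendsto (fun k : ℕ => ⨍ t in Set.Icc (-(k : ℝ)) (k : ℝ), S.D.wave t (b S.vac)) atTop
      (𝓝 (⟪S.vac, b S.vac⟫_ℂ • S.vac)) := by sorry

end Crest.Agent.R084.Blueprint
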