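import Mathlib
import Crest.Prelude.Def_ModularData

/-! R084: basic facts on the bounded functional calculus `LineCalculus`. -/

set_option autoImplicit false
set_option linter.unusedSectionVars false

namespace Crest.Agent.R084

open Filter MeasureTheory Crest.OpAlg
open scoped Topology InnerProductSpace

variable {H : Type*} [NormedAddCommGroup H] [InnerProductSpace ℂ H] [CompleteSpace H]

theorem character_apply (t u : ℝ) :
    LineCalculus.character t u = Complex.exp (Complex.I * ((t * u : ℝ) : ℂ)) := rfl

theorem character_zero : LineCalculus.character 0 = 1 := by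
  ext u; simp [character_apply]

theorem character_add (s t : ℝ) : LineCalculus.character (s + t) =
    LineCalculus.character s * LineCalculus.character t := by
  ext u
  simp only [character_apply, BoundedContinuousFunction.coe_mul, Pi.mul_apply, ← Complex.exp_add]
  congr 1
  push_cast
  ring

theorem star_character (t : ℝ) : star (LineCalculus.character t) =
    LineCalculus.character (-t) := by
  ext u
  simp only [BoundedContinuousFunction.star_apply, character_apply, RCLike.star_def,
    ← Complex.exp_conj, map_mul, Complex.conj_I, Complex.conj_ofReal]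
  congr 1
  push_cast
  ring

theorem norm_character_apply (t u : ℝ) : ‖LineCalculus.character t u‖ = 1 := by
  rw [character_apply, Complex.norm_exp]; simp

theorem apply_norm_le (D : LineCalculus H) (f : BoundedContinuousFunction ℝ ℂ) :
    ‖D.apply f‖ ≤ ‖f‖ := NonUnitalStarAlgHom.norm_apply_le D.apply f

theorem apply_norm_le' (D : LineCalculus H) (f : BoundedContinuousFunction ℝ ℂ) (x : H) :
    ‖D.apply f x‖ ≤ ‖f‖ * ‖x‖ :=
  (D.apply f).le_of_opNorm_le (apply_norm_le D f) x

theorem apply_mul (D : LineCalculus H) (f g : BoundedContinuousFunction ℝ ℂ) (x : H) :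
    D.apply (f * g) x = D.apply f (D.apply g x) := by
  rw [map_mul]; rfl

theorem apply_comm (D : LineCalculus H) (f g : BoundedContinuousFunction ℝ ℂ) (x : H) :
    D.apply f (D.apply g x) = D.apply g (D.apply f x) := by
  rw [← apply_mul, ← apply_mul, mul_comm]

theorem wave_zero (D : LineCalculus H) : D.wave 0 = 1 := by
  rw [LineCalculus.wave, character_zero, map_one]

theorem wave_add (D : LineCalculus H) (s t : ℝ) : D.wave (s + t) = D.wave s * D.wave t := by
  rw [LineCalculus.wave, character_add, map_mul]; rfl

theorem star_wave (D : LineCalculus H) (t : ℝ) : star (D.wave t) = D.wave (-t) := by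
  rw [LineCalculus.wave, ← map_star, star_character]; rfl

theorem wave_neg_mul (D : LineCalculus H) (t : ℝ) : D.wave (-t) * D.wave t = 1 := by
  rw [← wave_add, neg_add_cancel, wave_zero]

theorem wave_mul_neg (D : LineCalculus H) (t : ℝ) : D.wave t * D.wave (-t) = 1 := by
  rw [← wave_add, add_neg_cancel, wave_zero]

theorem wave_neg_apply (D : LineCalculus H) (t : ℝ) (x : H) : D.wave (-t) (D.wave t x) = x := by
  have := congrArg (fun A : H →L[ℂ] H => A x) (wave_neg_mul D t)
  simpa using this

theorem wave_apply_neg (D : LineCalculus H) (t : ℝ) (x : H) : D.wave t (D.wave (-t) x) = x := by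
  have := congrArg (fun A : H →L[ℂ] H => A x) (wave_mul_neg D t)
  simpa using this

theorem inner_wave_wave (D : LineCalculus H) (t : ℝ) (x y : H) :
    ⟪D.wave t x, D.wave t y⟫_ℂ = ⟪x, y⟫_ℂ := by
  have h1 : ⟪D.wave t x, D.wave t y⟫_ℂ = ⟪x, (star (D.wave t)) (D.wave t y)⟫_ℂ := by
    rw [ContinuousLinearMap.star_eq_adjoint, ContinuousLinearMap.adjoint_inner_right]
  rw [h1, star_wave, wave_neg_apply]

theorem norm_wave (D : LineCalculus H) (t : ℝ) (x : H) : ‖D.wave t x‖ = ‖x‖ := by
  have h := inner_wave_wave D t x x
  rw [inner_self_eq_norm_sq_to_K, inner_self_eq_norm_sq_to_K] at h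
  have h2 : ‖D.wave t x‖ ^ 2 = ‖x‖ ^ 2 := by exact_mod_cast h
  exact (sq_eq_sq₀ (norm_nonneg _) (norm_nonneg _)).1 h2

/-- The cut-off by a compactly supported function makes `t ↦ e^{itD}` norm Lipschitz. -/
theorem norm_character_mul_sub_le (f : BoundedContinuousFunction ℝ ℂ)
    (hf : HasCompactSupport (f : ℝ → ℂ)) :
    ∃ R : ℝ, 0 ≤ R ∧ ∀ s t : ℝ,
      ‖LineCalculus.character t * f - LineCalculus.character s * f‖ ≤ R * |t - s| := by
  obtain ⟨R, hR⟩ := hf.isCompact.isBounded.exists_norm_le
  have hR0 : 0 ≤ max R 0 := le_max_right _ _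
  refine ⟨max R 0 * ‖f‖, by positivity, fun s t => ?_⟩
  refine (BoundedContinuousFunction.norm_le (by positivity)).2 fun u => ?_
  simp only [BoundedContinuousFunction.coe_sub, BoundedContinuousFunction.coe_mul, Pi.sub_apply,
    Pi.mul_apply, ← sub_mul, norm_mul]
  by_cases hu : f u = 0
  · rw [hu]; simp; positivity
  have hu' : ‖u‖ ≤ max R 0 := le_max_of_le_left (hR u (subset_closure hu))
  have h1 : ‖LineCalculus.character t u - LineCalculus.character s u‖ ≤ |t - s| * ‖u‖ := by
    have : LineCalculus.character t u - LineCalculus.character s u =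
        LineCalculus.character s u *
          (Complex.exp (Complex.I * (((t - s) * u : ℝ) : ℂ)) - 1) := by
      have h := congrArg (fun F : BoundedContinuousFunction ℝ ℂ => F u)
        (character_add s (t - s))
      simp only [add_sub_cancel, BoundedContinuousFunction.coe_mul, Pi.mul_apply] at h
      rw [h, character_apply (t - s)]
      ring
    rw [this, norm_mul, norm_character_apply, one_mul]
    refine (Real.norm_exp_I_mul_ofReal_sub_one_le).trans ?_
    rw [norm_mul, Real.norm_eq_abs (t - s)]
  calc _ ≤ (|t - s| * ‖u‖) * ‖f‖ :=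
        mul_le_mul h1 (f.norm_coe_le_norm u) (norm_nonneg _) (by positivity)
    _ ≤ (|t - s| * max R 0) * ‖f‖ := by gcongr
    _ = _ := by ring

theorem continuous_character_mul (f : BoundedContinuousFunction ℝ ℂ)
    (hf : HasCompactSupport (f : ℝ → ℂ)) :
    Continuous fun t : ℝ => LineCalculus.character t * f := by
  obtain ⟨R, hR0, hR⟩ := norm_character_mul_sub_le f hf
  refine (LipschitzWith.of_dist_le_mul (K := ⟨R, hR0⟩) fun x y => ?_).continuous
  rw [dist_eq_norm, Real.dist_eq]
  exact hR y x

/-- The calculus as a continuous linear map. -/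
noncomputable def applyL (D : LineCalculus H) :
    BoundedContinuousFunction ℝ ℂ →L[ℂ] (H →L[ℂ] H) :=
  LinearMap.mkContinuous
    { toFun := fun f => D.apply f
      map_add' := fun f g => map_add D.apply f g
      map_smul' := fun c f => map_smul D.apply c f } 1
    (fun f => by simpa using apply_norm_le D f)

theorem applyL_apply (D : LineCalculus H) (f : BoundedContinuousFunction ℝ ℂ) :
    applyL D f = D.apply f := rfl

theorem continuous_wave_apply (D : LineCalculus H) (x : H) :
    Continuous fun t => D.wave t x := by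
  rw [continuous_iff_continuousAt]
  intro t₀
  rw [Metric.continuousAt_iff]
  intro ε hε
  obtain ⟨f, hf, hfx⟩ := D.window x (ε / 3) (by positivity)
  have hc : Continuous fun t : ℝ => D.apply (LineCalculus.character t * f) x := by
    have h1 : Continuous fun t : ℝ => applyL D (LineCalculus.character t * f) :=
      (applyL D).continuous.comp (continuous_character_mul f hf)
    exact h1.clm_apply continuous_const
  obtain ⟨d, hd, hd'⟩ := Metric.continuousAt_iff.1 hc.continuousAt (ε / 3) (by positivity)
  refine ⟨d, hd, fun {t} ht => ?_⟩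
  have h1 := hd' ht
  rw [dist_eq_norm] at h1 ⊢
  simp only [apply_mul] at h1
  have h2 : D.wave t x - D.wave t₀ x =
      (D.wave t (D.apply f x) - D.wave t₀ (D.apply f x)) -
      (D.wave t (D.apply f x - x)) + (D.wave t₀ (D.apply f x - x)) := by
    simp only [map_sub]; abel
  rw [h2]
  calc _ ≤ ‖D.wave t (D.apply f x) - D.wave t₀ (D.apply f x)‖ +
        ‖D.wave t (D.apply f x - x)‖ + ‖D.wave t₀ (D.apply f x - x)‖ :=
        (norm_add_le _ _).trans (add_le_add_left (norm_sub_le _ _) _)
    _ < ε / 3 + ε / 3 + ε / 3 := by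
        rw [norm_wave, norm_wave]
        exact add_lt_add (add_lt_add h1 hfx) hfx
    _ = ε := by ring

theorem continuous_wave (D : LineCalculus H) (y : ℝ → H) (hy : Continuous y) :
    Continuous fun t => D.wave t (y t) := by
  rw [continuous_iff_continuousAt]
  intro t₀
  have h1 : Tendsto (fun t => D.wave t (y t₀)) (𝓝 t₀) (𝓝 (D.wave t₀ (y t₀))) :=
    (continuous_wave_apply D (y t₀)).tendsto t₀
  have h2 : Tendsto (fun t => D.wave t (y t - y t₀)) (𝓝 t₀) (𝓝 0) := by
    rw [tendsto_zero_iff_norm_tendsto_zero]
    simp only [norm_wave]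
    have : Tendsto (fun t => y t - y t₀) (𝓝 t₀) (𝓝 (y t₀ - y t₀)) :=
      (hy.tendsto t₀).sub tendsto_const_nhds
    rw [sub_self] at this
    simpa using this.norm
  have h3 := h1.add h2
  simp only [← map_add, add_sub_cancel, add_zero] at h3
  exact h3

theorem integrable_smul_cont (g : ℝ → ℂ) (hg : Integrable g)
    (y : ℝ → H) (hy : Continuous y) (C : ℝ) (hC : ∀ t, ‖y t‖ ≤ C) :
    Integrable fun t => g t • y t :=
  Integrable.smul_bdd hg C hy.aestronglyMeasurable (Eventually.of_forall hC)

theorem integrable_smul_wave (D : LineCalculus H) (g : ℝ → ℂ) (hg : Integrable g)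
    (y : ℝ → H) (hy : Continuous y) (C : ℝ) (hC : ∀ t, ‖y t‖ ≤ C) :
    Integrable fun t => g t • D.wave t (y t) :=
  integrable_smul_cont g hg _ (continuous_wave D y hy) C
    (fun t => by rw [norm_wave]; exact hC t)

theorem norm_integral_smul_le (g : ℝ → ℂ) (hg : Integrable g)
    (y : ℝ → H) (C : ℝ) (hC : ∀ t, ‖y t‖ ≤ C) :
    ‖∫ t, g t • y t‖ ≤ (∫ t, ‖g t‖) * C := by
  rw [← integral_mul_const]
  refine (norm_integral_le_integral_norm _).trans ?_
  refine integral_mono_of_nonneg (Eventually.of_forall fun t => norm_nonneg _)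
    (hg.norm.mul_const C) (Eventually.of_forall fun t => ?_)
  simp only [norm_smul]
  exact mul_le_mul_of_nonneg_left (hC t) (norm_nonneg _)

/-- `∫ g(t) e^{itD} f(D) x dt = (ĝ f)(D) x` for compactly supported `f`. -/
theorem integral_wave_aux (D : LineCalculus H) (g : ℝ → ℂ) (hg : Integrable g)
    (G : BoundedContinuousFunction ℝ ℂ)
    (hG : ∀ u : ℝ, G u = ∫ t, g t * Complex.exp (Complex.I * ((t * u : ℝ) : ℂ)))
    (f : BoundedContinuousFunction ℝ ℂ) (hf : HasCompactSupport (f : ℝ → ℂ)) (x : H) :
    ∫ t, g t • D.wave t (D.apply f x) = D.apply G (D.apply f x) := by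
  have hint : Integrable fun t => g t • (LineCalculus.character t * f) := by
    refine Integrable.smul_bdd hg ‖f‖ (continuous_character_mul f hf).aestronglyMeasurable
      (Eventually.of_forall fun t => ?_)
    refine (BoundedContinuousFunction.norm_le (norm_nonneg _)).2 fun u => ?_
    simp only [BoundedContinuousFunction.coe_mul, Pi.mul_apply, norm_mul,
      norm_character_apply, one_mul]
    exact f.norm_coe_le_norm u
  have hGf : ∫ t, g t • (LineCalculus.character t * f) = G * f := by
    ext u
    have h1 := (BoundedContinuousFunction.evalCLM ℂ u (β := ℂ)).integral_comp_comm hint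
    have h2 : (∫ t, g t • (LineCalculus.character t * f)) u =
      (BoundedContinuousFunction.evalCLM ℂ u (β := ℂ))
        (∫ t, g t • (LineCalculus.character t * f)) := rfl
    rw [h2, ← h1, BoundedContinuousFunction.coe_mul, Pi.mul_apply, hG, ← integral_mul_const]
    refine integral_congr_ae (Eventually.of_forall fun t => ?_)
    simp only [map_smul, BoundedContinuousFunction.evalCLM_apply,
      BoundedContinuousFunction.coe_mul, Pi.mul_apply, smul_eq_mul, character_apply]
    ring
  rw [← apply_mul, ← hGf]
  have h1 := (applyL D).integral_comp_comm hint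
  have h3 : Integrable fun t => applyL D (g t • (LineCalculus.character t * f)) :=
    (applyL D).integrable_comp hint
  rw [← applyL_apply D (∫ t, g t • (LineCalculus.character t * f)), ← h1]
  rw [ContinuousLinearMap.integral_apply h3]
  refine integral_congr_ae (Eventually.of_forall fun t => ?_)
  simp only [map_smul, applyL_apply, ContinuousLinearMap.smul_apply, apply_mul]
  rfl

/-- `∫ g(t) e^{itD} x dt = ĝ(D) x` -/
theorem integral_wave (D : LineCalculus H) (g : ℝ → ℂ) (hg : Integrable g)
    (G : BoundedContinuousFunction ℝ ℂ)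
    (hG : ∀ u : ℝ, G u = ∫ t, g t * Complex.exp (Complex.I * ((t * u : ℝ) : ℂ))) (x : H) :
    ∫ t, g t • D.wave t x = D.apply G x := by
  have key : ∀ ε : ℝ, 0 < ε → ‖(∫ t, g t • D.wave t x) - D.apply G x‖ ≤
      ((∫ t, ‖g t‖) + ‖G‖) * ε := by
    intro ε hε
    obtain ⟨f, hf, hfx⟩ := D.window x ε hε
    have hi1 : Integrable fun t => g t • D.wave t x :=
      integrable_smul_wave D g hg (fun _ => x) continuous_const ‖x‖ (fun _ => le_rfl)
    have hi2 : Integrable fun t => g t • D.wave t (D.apply f x) :=
      integrable_smul_wave D g hg (fun _ => D.apply f x) continuous_const _ (fun _ => le_rfl)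
    have h0 := integral_wave_aux D g hg G hG f hf x
    have h1 : (∫ t, g t • D.wave t x) - D.apply G x =
        (∫ t, g t • D.wave t (x - D.apply f x)) + D.apply G (D.apply f x - x) := by
      rw [map_sub (D.apply G), ← h0]
      simp only [map_sub, smul_sub]
      rw [integral_sub hi1 hi2]
      abel
    rw [h1]
    refine (norm_add_le _ _).trans ?_
    rw [add_mul]
    refine add_le_add ?_ ?_
    · refine norm_integral_smul_le g hg _ ε fun t => ?_
      rw [norm_wave, norm_sub_rev]; exact hfx.le
    · refine (apply_norm_le' D G _).trans ?_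
      exact mul_le_mul_of_nonneg_left hfx.le (norm_nonneg _)
  have hA : 0 ≤ (∫ t, ‖g t‖) + ‖G‖ :=
    add_nonneg (integral_nonneg fun t => norm_nonneg _) (norm_nonneg _)
  have h0 : ‖(∫ t, g t • D.wave t x) - D.apply G x‖ ≤ 0 := by
    refine le_of_forall_pos_le_add fun ε hε => ?_
    rw [zero_add]
    refine (key (ε / ((∫ t, ‖g t‖) + ‖G‖ + 1)) (by positivity)).trans ?_
    rw [mul_div_assoc', div_le_iff₀ (by positivity)]
    nlinarith
  exact sub_eq_zero.1 (norm_le_zero_iff.1 h0)

/-- Strong convergence of any cut-off that is `1` on the support of a window: if `f(D) x = 0`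
for all compactly supported `f`, then `x = 0`. -/
theorem eq_zero_of_compact (D : LineCalculus H) (x : H)
    (h : ∀ f : BoundedContinuousFunction ℝ ℂ, HasCompactSupport (f : ℝ → ℂ) →
      D.apply f x = 0) : x = 0 := by
  by_contra hx
  obtain ⟨f, hf, hfx⟩ := D.window x ‖x‖ (norm_pos_iff.2 hx)
  rw [h f hf, zero_sub, norm_neg] at hfx
  exact lt_irrefl _ hfx

end Crest.Agent.R084
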