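import Crest.Agent.R084.Calc

/-! R084: convex combinations realising ergodic averages. -/

set_option autoImplicit false

namespace Crest.Agent.R084

open Filter MeasureTheory Crest.OpAlg
open scoped Topology InnerProductSpace

/-- A window average of `(f, y₁, y₂)` is approximated by convex combinations. -/
theorem exists_convex_window {E : Type*} [NormedAddCommGroup E] [NormedSpace ℝ E]
    [CompleteSpace E] (G : ℝ → E) (hG : Continuous G) (k : ℕ) (hk : 0 < k) (ε : ℝ) (hε : 0 < ε) :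
    ∃ (ι : Type) (_ : Fintype ι) (w : ι → ℝ) (τ : ι → ℝ), (∀ i, 0 ≤ w i) ∧ ∑ i, w i = 1 ∧
      ‖(∑ i, w i • G (τ i)) - ⨍ t in Set.Icc (-(k : ℝ)) k, G t‖ < ε := by
  have hk' : (0 : ℝ) < k := by exact_mod_cast hk
  have h1 : (⨍ t in Set.Icc (-(k : ℝ)) k, G t) ∈ closure (convexHull ℝ (Set.range G)) := by
    refine (convex_convexHull ℝ _).set_average_mem_closure ?_ ?_ ?_ ?_
    · rw [Real.volume_Icc]
      simp only [ne_eq, ENNReal.ofReal_eq_zero, not_le]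
      linarith
    · rw [Real.volume_Icc]
      exact ENNReal.ofReal_ne_top
    · exact Eventually.of_forall fun t => subset_convexHull ℝ _ ⟨t, rfl⟩
    · exact hG.continuousOn.integrableOn_compact isCompact_Icc
  obtain ⟨z, hz, hzd⟩ := Metric.mem_closure_iff.1 h1 ε hε
  obtain ⟨ι, hι, w, v, hw0, hw1, hv, hz'⟩ := mem_convexHull_iff_exists_fintype.1 hz
  choose τ hτ using hv
  refine ⟨ι, hι, w, τ, hw0, hw1, ?_⟩
  simp only [hτ]
  rw [hz', ← dist_eq_norm, dist_comm]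
  exact hzd

variable {H : Type*} [NormedAddCommGroup H] [InnerProductSpace ℂ H] [CompleteSpace H]

/-- The convex-combination step. -/
theorem exists_convex (D : LineCalculus H) (f : ℝ → ℝ) (hf : Continuous f)
    (hfb : ∃ C, ∀ t, |f t| ≤ C) (x y X Y : H) (c : ℝ) (hc : 0 < c)
    (hfreq : ∃ᶠ k : ℕ in atTop, c ≤ windowMean f k)
    (hx : Tendsto (fun k : ℕ => ⨍ t in Set.Icc (-(k : ℝ)) k, D.wave t x) atTop (𝓝 X))
    (hy : Tendsto (fun k : ℕ => ⨍ t in Set.Icc (-(k : ℝ)) k, D.wave t y) atTop (𝓝 Y))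
    (ε : ℝ) (hε : 0 < ε) :
    ∃ (ι : Type) (_ : Fintype ι) (w : ι → ℝ) (τ : ι → ℝ), (∀ i, 0 ≤ w i) ∧ ∑ i, w i = 1 ∧
      c - ε ≤ ∑ i, w i * f (τ i) ∧
      ‖(∑ i, (w i : ℂ) • D.wave (τ i) x) - X‖ ≤ ε ∧
      ‖(∑ i, (w i : ℂ) • D.wave (τ i) y) - Y‖ ≤ ε := by
  have hε2 : 0 < ε / 2 := by positivity
  have h1 := Metric.tendsto_atTop.1 hx (ε / 2) hε2
  have h2 := Metric.tendsto_atTop.1 hy (ε / 2) hε2
  obtain ⟨N1, hN1⟩ := h1
  obtain ⟨N2, hN2⟩ := h2
  obtain ⟨k, hkc, hkN⟩ := (hfreq.and_eventually (eventually_ge_atTop (max (max N1 N2) 1))).exists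
  have hkN1 : N1 ≤ k := (le_max_left _ _).trans ((le_max_left _ _).trans hkN)
  have hkN2 : N2 ≤ k := (le_max_right _ _).trans ((le_max_left _ _).trans hkN)
  have hk0 : 0 < k := (le_max_right (max N1 N2) 1).trans hkN
  set G : ℝ → ℝ × H × H := fun t => (f t, D.wave t x, D.wave t y) with hGdef
  have hG : Continuous G :=
    hf.prodMk ((continuous_wave_apply D x).prodMk (continuous_wave_apply D y))
  obtain ⟨ι, hι, w, τ, hw0, hw1, hw⟩ := exists_convex_window G hG k hk0 (ε / 2) hε2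
  have hGi : IntegrableOn G (Set.Icc (-(k : ℝ)) k) :=
    hG.continuousOn.integrableOn_compact isCompact_Icc
  have hGi2 : IntegrableOn (fun t => (D.wave t x, D.wave t y)) (Set.Icc (-(k : ℝ)) k) :=
    ((continuous_wave_apply D x).prodMk
      (continuous_wave_apply D y)).continuousOn.integrableOn_compact isCompact_Icc
  have e1 : (⨍ t in Set.Icc (-(k : ℝ)) k, G t).1 = ⨍ t in Set.Icc (-(k : ℝ)) k, f t := by
    rw [setAverage_eq, setAverage_eq, Prod.smul_fst, fst_integral hGi]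
  have e2 : (⨍ t in Set.Icc (-(k : ℝ)) k, G t).2.1 =
      ⨍ t in Set.Icc (-(k : ℝ)) k, D.wave t x := by
    rw [setAverage_eq, setAverage_eq, Prod.smul_snd, Prod.smul_fst, snd_integral hGi,
      fst_integral hGi2]
  have e3 : (⨍ t in Set.Icc (-(k : ℝ)) k, G t).2.2 =
      ⨍ t in Set.Icc (-(k : ℝ)) k, D.wave t y := by
    rw [setAverage_eq, setAverage_eq, Prod.smul_snd, Prod.smul_snd, snd_integral hGi,
      snd_integral hGi2]
  have s1 : (∑ i, w i • G (τ i)).1 = ∑ i, w i * f (τ i) := by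
    rw [Prod.fst_sum]; rfl
  have s2 : (∑ i, w i • G (τ i)).2.1 = ∑ i, (w i : ℂ) • D.wave (τ i) x := by
    rw [Prod.snd_sum, Prod.fst_sum]
    refine Finset.sum_congr rfl fun i _ => ?_
    exact (Complex.coe_smul _ _).symm
  have s3 : (∑ i, w i • G (τ i)).2.2 = ∑ i, (w i : ℂ) • D.wave (τ i) y := by
    rw [Prod.snd_sum, Prod.snd_sum]
    refine Finset.sum_congr rfl fun i _ => ?_
    exact (Complex.coe_smul _ _).symm
  set Z := (∑ i, w i • G (τ i)) - ⨍ t in Set.Icc (-(k : ℝ)) k, G t with hZ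
  have z1 : ‖Z.1‖ < ε / 2 := (norm_fst_le Z).trans_lt hw
  have z2 : ‖Z.2.1‖ < ε / 2 := ((norm_fst_le Z.2).trans (norm_snd_le Z)).trans_lt hw
  have z3 : ‖Z.2.2‖ < ε / 2 := ((norm_snd_le Z.2).trans (norm_snd_le Z)).trans_lt hw
  rw [hZ, Prod.fst_sub, s1, e1] at z1
  rw [hZ, Prod.snd_sub, Prod.fst_sub, s2, e2] at z2
  rw [hZ, Prod.snd_sub, Prod.snd_sub, s3, e3] at z3
  refine ⟨ι, hι, w, τ, hw0, hw1, ?_, ?_, ?_⟩
  · have h3 : c ≤ ⨍ t in Set.Icc (-(k : ℝ)) k, f t := hkc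
    rw [Real.norm_eq_abs, abs_lt] at z1
    linarith [z1.1]
  · have h3 := hN1 k hkN1
    rw [dist_eq_norm] at h3
    calc _ = ‖((∑ i, (w i : ℂ) • D.wave (τ i) x) - ⨍ t in Set.Icc (-(k : ℝ)) k, D.wave t x) +
          ((⨍ t in Set.Icc (-(k : ℝ)) k, D.wave t x) - X)‖ := by congr 1; abel
      _ ≤ ε / 2 + ε / 2 := (norm_add_le _ _).trans (add_le_add z2.le h3.le)
      _ = ε := by ring
  · have h3 := hN2 k hkN2
    rw [dist_eq_norm] at h3
    calc _ = ‖((∑ i, (w i : ℂ) • D.wave (τ i) y) - ⨍ t in Set.Icc (-(k : ℝ)) k, D.wave t y) +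
          ((⨍ t in Set.Icc (-(k : ℝ)) k, D.wave t y) - Y)‖ := by congr 1; abel
      _ ≤ ε / 2 + ε / 2 := (norm_add_le _ _).trans (add_le_add z3.le h3.le)
      _ = ε := by ring

end Crest.Agent.R084
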