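import Mathlib
import Crest.Prelude.Def_ModularData

/-! R084: smoothing kernel with scale-invariant `L¹` bound. -/

set_option autoImplicit false

namespace Crest.Agent.R084

open Filter MeasureTheory
open scoped Topology FourierTransform SchwartzMap ContDiff

/-- The bump function used for the kernel. -/
noncomputable def kbump : ContDiffBump (0 : ℝ) := ⟨1, 2, one_pos, one_lt_two⟩

theorem kbump_hcs : HasCompactSupport (Complex.ofRealCLM ∘ (kbump : ℝ → ℝ)) :=
  kbump.hasCompactSupport.comp_left rfl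

theorem kbump_smooth : ContDiff ℝ ∞ (Complex.ofRealCLM ∘ (kbump : ℝ → ℝ)) :=
  Complex.ofRealCLM.contDiff.comp kbump.contDiff

/-- The bump function as a Schwartz function. -/
noncomputable def kschwartz : 𝓢(ℝ, ℂ) := kbump_hcs.toSchwartzMap kbump_smooth

theorem kschwartz_apply (u : ℝ) : kschwartz u = ((kbump u : ℝ) : ℂ) := rfl

/-- The Fourier transform of the bump function. -/
noncomputable def khat : 𝓢(ℝ, ℂ) := 𝓕 kschwartz

theorem kschwartz_eq (u : ℝ) :
    ((kbump u : ℝ) : ℂ) =
      ∫ v : ℝ, Complex.exp (((2 * Real.pi * (v * u) : ℝ) : ℂ) * Complex.I) * khat v := by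
  have h1 : 𝓕⁻ khat = kschwartz := FourierTransform.fourierInv_fourier_eq _
  have h2 : (𝓕⁻ khat) u = kschwartz u := by rw [h1]
  rw [← kschwartz_apply, ← h2, SchwartzMap.fourierInv_coe, Real.fourierInv_eq']
  congr 1
  ext v
  simp only [smul_eq_mul]
  congr 4
  simp [mul_comm]

theorem exists_kernel : ∃ C : ℝ, 0 < C ∧ ∀ (s δ : ℝ), 0 < δ →
    ∃ (g : ℝ → ℂ) (G : BoundedContinuousFunction ℝ ℂ),
      Integrable g ∧ (∫ t, ‖g t‖) ≤ C ∧
      (∀ u : ℝ, G u = ∫ t, g t * Complex.exp (Complex.I * ((t * u : ℝ) : ℂ))) ∧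
      (∀ u, ‖G u‖ ≤ 1) ∧
      (∀ u ∈ Set.Icc (s - δ) (s + δ), G u = 1) ∧
      (∀ u, u ∉ Set.Icc (s - 2 * δ) (s + 2 * δ) → G u = 0) := by
  have hint : Integrable khat := khat.integrable
  refine ⟨(∫ v, ‖khat v‖) + 1, by positivity, fun s δ hδ => ?_⟩
  have hpi : 0 < 2 * Real.pi := by positivity
  set R : ℝ := δ / (2 * Real.pi) with hR
  have hRpos : 0 < R := by positivity
  set g : ℝ → ℂ := fun t => (R : ℂ) * (Complex.exp (-(Complex.I * ((t * s : ℝ) : ℂ))) *
    khat (R * t)) with hg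
  have hG1 : ∀ u, ‖((kbump ((u - s) / δ) : ℝ) : ℂ)‖ ≤ 1 := by
    intro u
    rw [Complex.norm_real, Real.norm_eq_abs, abs_of_nonneg kbump.nonneg]
    exact kbump.le_one
  set G : BoundedContinuousFunction ℝ ℂ := BoundedContinuousFunction.ofNormedAddCommGroup
    (fun u : ℝ => ((kbump ((u - s) / δ) : ℝ) : ℂ))
    (Complex.continuous_ofReal.comp (kbump.continuous.comp (by fun_prop))) 1 hG1 with hG
  have hGu : ∀ u, G u = ((kbump ((u - s) / δ) : ℝ) : ℂ) := fun u => rfl
  have hgnorm : ∀ t, ‖g t‖ = R * ‖khat (R * t)‖ := by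
    intro t
    simp only [hg, norm_mul, Complex.norm_real, Real.norm_eq_abs, abs_of_pos hRpos,
      Complex.norm_exp]
    simp
  refine ⟨g, G, ?_, ?_, ?_, ?_, ?_, ?_⟩
  · have h1 : Integrable (fun t : ℝ => khat (R * t)) := hint.comp_mul_left' hRpos.ne'
    refine Integrable.const_mul ?_ _
    refine (h1.bdd_mul (c := 1) ?_ ?_)
    · exact Continuous.aestronglyMeasurable (by fun_prop)
    · filter_upwards with t
      rw [Complex.norm_exp]
      simp
  · simp_rw [hgnorm]
    have h1 := Measure.integral_comp_mul_left (fun t => ‖khat t‖) R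
    rw [integral_const_mul, h1]
    rw [abs_of_pos (inv_pos.mpr hRpos), smul_eq_mul, ← mul_assoc, mul_inv_cancel₀ hRpos.ne', one_mul]
    linarith
  · intro u
    rw [hGu, kschwartz_eq]
    set F : ℝ → ℂ := fun v => Complex.exp (((2 * Real.pi * (v * ((u - s) / δ)) : ℝ) : ℂ) *
      Complex.I) * khat v with hF
    have h2 : ∀ t, g t * Complex.exp (Complex.I * ((t * u : ℝ) : ℂ)) = (R : ℂ) * F (R * t) := by
      intro t
      simp only [hg, hF]
      have h3 : Complex.exp (((2 * Real.pi * (R * t * ((u - s) / δ)) : ℝ) : ℂ) * Complex.I) =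
          Complex.exp (-(Complex.I * ((t * s : ℝ) : ℂ))) *
            Complex.exp (Complex.I * ((t * u : ℝ) : ℂ)) := by
        rw [← Complex.exp_add]
        congr 1
        have h4 : 2 * Real.pi * (R * t * ((u - s) / δ)) = t * u - t * s := by
          rw [hR]; field_simp
        rw [h4]
        push_cast
        ring
      rw [h3]
      ring
    simp_rw [h2]
    rw [integral_const_mul, Measure.integral_comp_mul_left F R, abs_of_pos (inv_pos.mpr hRpos)]
    rw [Complex.real_smul, ← mul_assoc]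
    push_cast
    rw [mul_inv_cancel₀ (by exact_mod_cast hRpos.ne'), one_mul]
  · exact hG1
  · intro u hu
    rw [hGu, kbump.one_of_mem_closedBall, Complex.ofReal_one]
    rw [Metric.mem_closedBall, dist_zero_right, Real.norm_eq_abs, abs_div, abs_of_pos hδ,
      div_le_iff₀ hδ, abs_le]
    change _ ≤ _ ∧ _ ≤ (1 : ℝ) * δ
    constructor
    · change -((1 : ℝ) * δ) ≤ _
      linarith [hu.1]
    · linarith [hu.2]
  · intro u hu
    rw [hGu, kbump.zero_of_le_dist, Complex.ofReal_zero]
    rw [dist_zero_right, Real.norm_eq_abs, abs_div, abs_of_pos hδ, le_div_iff₀ hδ]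
    change (2 : ℝ) * δ ≤ _
    by_contra hlt
    push Not at hlt
    rw [abs_lt] at hlt
    exact hu ⟨by linarith [hlt.1], by linarith [hlt.2]⟩

end Crest.Agent.R084
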