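import Mathlib
import Crest.Prelude.Def_ModularData

/-! R084 (P): random phases. -/

set_option autoImplicit false

namespace Crest.Agent.R084

open Filter MeasureTheory Crest.OpAlg
open scoped Topology InnerProductSpace ComplexConjugate

/-- Orthogonality of characters, vector-valued. -/
theorem sum_norm_sq_char {H : Type*} [NormedAddCommGroup H] [InnerProductSpace ℂ H]
    {G : Type*} [AddCommGroup G] [Fintype G] {κ : Type*} [Fintype κ]
    (ψ : κ → AddChar G ℂ) (hψ : Function.Injective ψ) (w : κ → H) :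
    ∑ g : G, ‖∑ k, ψ k g • w k‖ ^ 2 = (Fintype.card G : ℝ) * ∑ k, ‖w k‖ ^ 2 := by
  classical
  have key : ((∑ g : G, ‖∑ k, ψ k g • w k‖ ^ 2 : ℝ) : ℂ) =
      (((Fintype.card G : ℝ) * ∑ k, ‖w k‖ ^ 2 : ℝ) : ℂ) := by
    have h1 : ∀ g : G, ((‖∑ k, ψ k g • w k‖ ^ 2 : ℝ) : ℂ) =
        ∑ k, ∑ l, ((ψ l - ψ k) g) * ⟪w k, w l⟫_ℂ := by
      intro g
      have : ((‖∑ k, ψ k g • w k‖ ^ 2 : ℝ) : ℂ) =
          ⟪∑ k, ψ k g • w k, ∑ k, ψ k g • w k⟫_ℂ := by
        rw [inner_self_eq_norm_sq_to_K]; push_cast; rfl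
      rw [this, sum_inner]
      refine Finset.sum_congr rfl fun k _ => ?_
      rw [inner_sum]
      refine Finset.sum_congr rfl fun l _ => ?_
      rw [inner_smul_left, inner_smul_right, AddChar.sub_apply', div_eq_mul_inv,
        AddChar.inv_apply_eq_conj]
      ring
    rw [Complex.ofReal_sum]
    simp_rw [h1]
    rw [Finset.sum_comm]
    have h2 : ∀ k, ∑ g : G, ∑ l, ((ψ l - ψ k) g) * ⟪w k, w l⟫_ℂ =
        (Fintype.card G : ℂ) * ((‖w k‖ ^ 2 : ℝ) : ℂ) := by
      intro k
      rw [Finset.sum_comm]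
      have h3 : ∀ l, ∑ g : G, ((ψ l - ψ k) g) * ⟪w k, w l⟫_ℂ =
          if l = k then (Fintype.card G : ℂ) * ((‖w k‖ ^ 2 : ℝ) : ℂ) else 0 := by
        intro l
        rw [← Finset.sum_mul, AddChar.sum_eq_ite]
        by_cases hlk : l = k
        · subst hlk
          rw [if_pos (sub_self _), if_pos rfl, inner_self_eq_norm_sq_to_K]
          push_cast; rfl
        · have : ψ l - ψ k ≠ 0 := fun h => hlk (hψ (sub_eq_zero.mp h))
          rw [if_neg this, if_neg hlk, zero_mul]
      simp_rw [h3]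
      rw [Finset.sum_ite_eq' Finset.univ k]
      simp
    simp_rw [h2]
    rw [← Finset.mul_sum]
    push_cast
    rfl
  exact_mod_cast key

/-- The coordinate characters of `ι → ZMod 4`. -/
noncomputable def coordChar {ι : Type*} (i : ι) : AddChar (ι → ZMod 4) ℂ :=
  (ZMod.stdAddChar (N := 4)).compAddMonoidHom (Pi.evalAddMonoidHom (fun _ : ι => ZMod 4) i)

theorem coordChar_apply {ι : Type*} (i : ι) (g : ι → ZMod 4) :
    coordChar i g = ZMod.stdAddChar (N := 4) (g i) := rfl

theorem coordChar_injective {ι : Type*} :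
    Function.Injective (coordChar : ι → AddChar (ι → ZMod 4) ℂ) := by
  classical
  intro i j h
  have h1 := DFunLike.congr_fun h (Pi.single i 1)
  rw [coordChar_apply, coordChar_apply, ZMod.injective_stdAddChar.eq_iff,
    Pi.single_eq_same] at h1
  by_contra hij
  rw [Pi.single_eq_of_ne (fun h => hij h.symm)] at h1
  exact absurd h1 (by decide)

/-- The trivial character together with the characters `g ↦ χ(g i - g j)`, `i ≠ j`. -/
noncomputable def pairChar {ι : Type*} :
    Option {p : ι × ι // p.1 ≠ p.2} → AddChar (ι → ZMod 4) ℂ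
  | none => 0
  | some p => coordChar p.1.1 - coordChar p.1.2

theorem pairChar_injective {ι : Type*} :
    Function.Injective (pairChar : _ → AddChar (ι → ZMod 4) ℂ) := by
  classical
  rintro (_ | ⟨⟨i, j⟩, hij⟩) (_ | ⟨⟨k, l⟩, hkl⟩) h
  · rfl
  · exact absurd (coordChar_injective (sub_eq_zero.mp (show _ - _ = 0 from h.symm))) hkl
  · exact absurd (coordChar_injective (sub_eq_zero.mp (show _ - _ = 0 from h))) hij
  · have h' : (coordChar i - coordChar j : AddChar (ι → ZMod 4) ℂ) =
        coordChar k - coordChar l := h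
    simp only [ne_eq] at hij hkl
    have hik : i = k := by
      have h1 := DFunLike.congr_fun h' (Pi.single i 1)
      rw [AddChar.sub_apply', AddChar.sub_apply'] at h1
      simp only [coordChar_apply] at h1
      rw [← AddChar.map_sub_eq_div, ← AddChar.map_sub_eq_div, ZMod.injective_stdAddChar.eq_iff,
        Pi.single_eq_same, Pi.single_eq_of_ne (fun h => hij h.symm)] at h1
      by_contra hik
      rw [Pi.single_eq_of_ne (fun h => hik h.symm)] at h1
      by_cases hil : i = l
      · subst hil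
        rw [Pi.single_eq_same] at h1
        exact absurd h1 (by decide)
      · rw [Pi.single_eq_of_ne (fun h => hil h.symm)] at h1
        exact absurd h1 (by decide)
    subst hik
    have hjl : j = l := coordChar_injective (sub_right_injective h')
    subst hjl
    rfl

variable {H : Type*} [NormedAddCommGroup H] [InnerProductSpace ℂ H] [CompleteSpace H]

/-- (P) random phases (average over `c : ι → {1,i,-1,-i}`). -/
theorem exists_phases {ι : Type*} [Fintype ι] (a : ι → (H →L[ℂ] H)) (T : H →L[ℂ] H) (ξ : H)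
    (μ : ℝ) (hμ : 0 ≤ μ) :
    ∃ c : ι → ℂ, (∀ i, ‖c i‖ = 1) ∧
      (∑ i, ‖T (a i ξ)‖ ^ 2) - μ * (‖∑ i, star (a i) (a i ξ)‖ ^ 2 +
          ∑ i, ∑ j, ‖star (a j) (a i ξ)‖ ^ 2) ≤
        ‖T ((∑ i, c i • a i) ξ)‖ ^ 2 -
          μ * ‖star (∑ i, c i • a i) ((∑ i, c i • a i) ξ)‖ ^ 2 := by
  classical
  set w : Option {p : ι × ι // p.1 ≠ p.2} → H := fun o => match o with
    | none => ∑ i, star (a i) (a i ξ)
    | some p => star (a p.1.2) (a p.1.1 ξ) with hw
  have hT : ∀ g : ι → ZMod 4, T ((∑ i, coordChar i g • a i) ξ) =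
      ∑ i, coordChar i g • T (a i ξ) := by
    intro g
    simp [map_sum]
  have hV : ∀ g : ι → ZMod 4,
      star (∑ i, coordChar i g • a i) ((∑ i, coordChar i g • a i) ξ) =
      ∑ k, pairChar k g • w k := by
    intro g
    have h1 : star (∑ i, coordChar i g • a i) ((∑ i, coordChar i g • a i) ξ) =
        ∑ i, ∑ j, ((coordChar i - coordChar j) g) • star (a j) (a i ξ) := by
      simp only [star_sum, star_smul, sum_apply, map_sum,
        smul_apply, map_smul]
      refine Finset.sum_congr rfl fun i _ => ?_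
      rw [Finset.smul_sum]
      refine Finset.sum_congr rfl fun j _ => ?_
      rw [smul_smul, AddChar.sub_apply', div_eq_mul_inv, AddChar.inv_apply_eq_conj]
      rfl
    rw [h1, Fintype.sum_option, ← Fintype.sum_prod_type']
    rw [← Fintype.sum_subtype_add_sum_subtype (fun p : ι × ι => p.1 ≠ p.2)]
    rw [add_comm]
    congr 1
    simp only [hw, pairChar, AddChar.zero_apply, one_smul]
    symm
    refine Fintype.sum_bijective (fun i : ι => (⟨(i, i), by simp⟩ : {p : ι × ι // ¬ p.1 ≠ p.2}))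
      ⟨fun i j h => ?_, fun p => ?_⟩ _ _ fun i => ?_
    · exact congrArg (fun q => q.1.1) h
    · obtain ⟨⟨i, j⟩, hij⟩ := p
      simp only [ne_eq, not_not] at hij
      subst hij
      exact ⟨i, rfl⟩
    · rw [sub_self]
      simp
  set N : ℝ := (Fintype.card (ι → ZMod 4) : ℝ) with hN
  have hNpos : 0 < N := by rw [hN]; exact_mod_cast Fintype.card_pos
  have hsumT : ∑ g : ι → ZMod 4, ‖T ((∑ i, coordChar i g • a i) ξ)‖ ^ 2 =
      N * ∑ i, ‖T (a i ξ)‖ ^ 2 := by
    simp_rw [hT]
    exact sum_norm_sq_char coordChar coordChar_injective _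
  have hsumV : ∑ g : ι → ZMod 4,
      ‖star (∑ i, coordChar i g • a i) ((∑ i, coordChar i g • a i) ξ)‖ ^ 2 ≤
      N * (‖∑ i, star (a i) (a i ξ)‖ ^ 2 + ∑ i, ∑ j, ‖star (a j) (a i ξ)‖ ^ 2) := by
    simp_rw [hV]
    rw [sum_norm_sq_char pairChar pairChar_injective]
    refine mul_le_mul_of_nonneg_left ?_ hNpos.le
    rw [Fintype.sum_option]
    refine add_le_add le_rfl ?_
    rw [← Fintype.sum_prod_type']
    rw [← Fintype.sum_subtype_add_sum_subtype (fun p : ι × ι => p.1 ≠ p.2)]
    exact le_add_of_nonneg_right (Finset.sum_nonneg fun _ _ => by positivity)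
  obtain ⟨g, -, hg⟩ := Finset.exists_le_of_sum_le (s := (Finset.univ : Finset (ι → ZMod 4)))
    (f := fun _ => (∑ i, ‖T (a i ξ)‖ ^ 2) - μ * (‖∑ i, star (a i) (a i ξ)‖ ^ 2 +
          ∑ i, ∑ j, ‖star (a j) (a i ξ)‖ ^ 2))
    (g := fun g => ‖T ((∑ i, coordChar i g • a i) ξ)‖ ^ 2 -
          μ * ‖star (∑ i, coordChar i g • a i) ((∑ i, coordChar i g • a i) ξ)‖ ^ 2)
    Finset.univ_nonempty (by
      rw [Finset.sum_const, Finset.card_univ, nsmul_eq_mul, Finset.sum_sub_distrib,
        ← Finset.mul_sum, hsumT, ← hN, mul_sub]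
      refine sub_le_sub le_rfl ?_
      calc _ ≤ μ * (N * (‖∑ i, star (a i) (a i ξ)‖ ^ 2 +
            ∑ i, ∑ j, ‖star (a j) (a i ξ)‖ ^ 2)) := mul_le_mul_of_nonneg_left hsumV hμ
        _ = _ := by ring)
  refine ⟨fun i => coordChar i g, fun i => ?_, hg⟩
  exact AddChar.norm_apply _ _

end Crest.Agent.R084
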