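import Mathlib
import Crest.Prelude.Def_ModularData

/-! R084 (T): truncation `v ↦ v r`, `r = (1 + v⋆v/K)⁻¹`. -/

set_option autoImplicit false

namespace Crest.Agent.R084

open Filter MeasureTheory Crest.OpAlg
open scoped Topology InnerProductSpace

variable {H : Type*} [NormedAddCommGroup H] [InnerProductSpace ℂ H] [CompleteSpace H]

/-- (T) truncation `v ↦ v r`, `r = (1 + v⋆v/K)⁻¹`. -/
theorem exists_truncation (v : H →L[ℂ] H) (K : ℝ) (hK : 0 < K) :
    ∃ r : H →L[ℂ] H,
      (∀ x' : H →L[ℂ] H, x' * v = v * x' → x' * star v = star v * x' → x' * r = r * x') ∧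
      (∀ x, ‖v (r x)‖ ≤ Real.sqrt K * ‖x‖) ∧
      ∀ x, ‖v x - v (r x)‖ ≤ (1 / Real.sqrt K) * ‖star v (v x)‖ := by
  set k : ℂ := ((K⁻¹ : ℝ) : ℂ) with hk
  set A : H →L[ℂ] H := 1 + k • (star v * v) with hA
  have hKinv : 0 < K⁻¹ := inv_pos.mpr hK
  have hAx : ∀ x, A x = x + k • (star v (v x)) := by
    intro x; simp [hA]
  -- real part of `⟪y, A y⟫`
  have hinner : ∀ y : H, RCLike.re ⟪y, A y⟫_ℂ = ‖y‖ ^ 2 + K⁻¹ * ‖v y‖ ^ 2 := by
    intro y
    rw [hAx, inner_add_right, inner_smul_right]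
    have h1 : ⟪y, star v (v y)⟫_ℂ = ((‖v y‖ ^ 2 : ℝ) : ℂ) := by
      rw [ContinuousLinearMap.star_eq_adjoint, ContinuousLinearMap.adjoint_inner_right,
        inner_self_eq_norm_sq_to_K]
      push_cast; rfl
    rw [h1, hk, map_add, inner_self_eq_norm_sq]
    congr 1
    rw [← Complex.ofReal_mul]
    exact Complex.ofReal_re _
  have hunit : IsUnit A := by
    refine ContinuousLinearMap.isUnit_of_forall_le_norm_inner_map A (c := 1) one_pos ?_
    intro x
    have h1 : RCLike.re ⟪x, A x⟫_ℂ ≤ ‖⟪x, A x⟫_ℂ‖ := RCLike.re_le_norm _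
    rw [hinner] at h1
    rw [norm_inner_symm]
    have h2 : 0 ≤ K⁻¹ * ‖v x‖ ^ 2 := by positivity
    simp only [NNReal.coe_one, mul_one]
    linarith
  obtain ⟨u, hu⟩ := hunit
  set r : H →L[ℂ] H := (↑u⁻¹ : H →L[ℂ] H) with hr
  have hAr : A * r = 1 := by rw [← hu, hr]; exact u.mul_inv
  have hrA : r * A = 1 := by rw [← hu, hr]; exact u.inv_mul
  have hArx : ∀ x, A (r x) = x := fun x => by
    have := congrArg (fun B : H →L[ℂ] H => B x) hAr
    simpa using this
  -- commuting with `A` implies commuting with `r`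
  have hcomm : ∀ x' : H →L[ℂ] H, x' * A = A * x' → x' * r = r * x' := by
    intro x' h
    calc x' * r = (r * A) * x' * r := by rw [hrA, one_mul]
      _ = r * (A * x') * r := by simp only [mul_assoc]
      _ = r * (x' * A) * r := by rw [h]
      _ = r * x' * (A * r) := by simp only [mul_assoc]
      _ = r * x' := by rw [hAr, mul_one]
  have hb : ∀ x, ‖v (r x)‖ ≤ Real.sqrt K * ‖x‖ := by
    intro x
    have h1 := hinner (r x)
    rw [hArx] at h1
    have h2 : RCLike.re ⟪r x, x⟫_ℂ ≤ ‖r x‖ * ‖x‖ := re_inner_le_norm _ _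
    have h3 : K⁻¹ * ‖v (r x)‖ ^ 2 ≤ ‖x‖ ^ 2 := by
      nlinarith [sq_nonneg (‖r x‖ - ‖x‖), sq_nonneg (‖r x‖), sq_nonneg ‖x‖]
    have h4 : ‖v (r x)‖ ^ 2 ≤ K * ‖x‖ ^ 2 := by
      have := mul_le_mul_of_nonneg_left h3 hK.le
      rwa [← mul_assoc, mul_inv_cancel₀ hK.ne', one_mul] at this
    refine le_of_sq_le_sq ?_ (by positivity)
    rw [mul_pow, Real.sq_sqrt hK.le]
    exact h4
  refine ⟨r, ?_, hb, ?_⟩
  · intro x' h1 h2
    apply hcomm
    have h3 : x' * (star v * v) = (star v * v) * x' := by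
      rw [← mul_assoc, h2, mul_assoc, h1, mul_assoc]
    rw [hA, mul_add, add_mul, mul_one, one_mul, mul_smul_comm, smul_mul_assoc, h3]
  · intro x
    have hc : (star v * v) * r = r * (star v * v) := by
      apply hcomm
      rw [hA, mul_add, add_mul, mul_one, one_mul, mul_smul_comm, smul_mul_assoc]
    have h1 : x - r x = k • r (star v (v x)) := by
      have h2 : A (r x) = x := hArx x
      rw [hAx] at h2
      have h3 : star v (v (r x)) = r (star v (v x)) := by
        have := congrArg (fun B : H →L[ℂ] H => B x) hc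
        simpa using this
      rw [h3] at h2
      rw [sub_eq_iff_eq_add, add_comm]
      exact h2.symm
    rw [← map_sub, h1, map_smul, norm_smul]
    have h4 : ‖k‖ = K⁻¹ := by rw [hk]; simp [abs_of_pos hK]
    rw [h4]
    have h5 := hb (star v (v x))
    calc K⁻¹ * ‖v (r (star v (v x)))‖ ≤ K⁻¹ * (Real.sqrt K * ‖star v (v x)‖) :=
          mul_le_mul_of_nonneg_left h5 hKinv.le
      _ = (1 / Real.sqrt K) * ‖star v (v x)‖ := by
          rw [← mul_assoc]
          congr 1
          have : Real.sqrt K ≠ 0 := (Real.sqrt_pos.mpr hK).ne'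
          field_simp
          rw [Real.sq_sqrt hK.le]

end Crest.Agent.R084
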