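import Crest.Agent.R084.Smear
import Crest.Agent.R084.Kernel
import Crest.Agent.R084.Phases
import Crest.Agent.R084.Trunc

/-! R084: assembly of the estimates for one fixed vector. -/

set_option autoImplicit false
set_option linter.unusedSectionVars false

namespace Crest.Agent.R084

open Filter MeasureTheory Crest.OpAlg
open scoped Topology InnerProductSpace

variable {H : Type*} [NormedAddCommGroup H] [InnerProductSpace ℂ H] [CompleteSpace H]

theorem supportedIn_apply (D : LineCalculus H) (G : BoundedContinuousFunction ℝ ℂ) (K : Set ℝ)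
    (hG : ∀ u, u ∉ K → G u = 0) (x : H) : D.SupportedIn K (D.apply G x) := by
  intro f hf
  rw [← apply_mul]
  have : f * G = 0 := by
    ext u
    by_cases hu : u ∈ K
    · simp [hf u hu]
    · simp [hG u hu]
  rw [this, map_zero]; rfl

theorem apply_eq_self (D : LineCalculus H) (G : BoundedContinuousFunction ℝ ℂ) (K : Set ℝ)
    (hG : ∀ u ∈ K, G u = 1) (x : H) (hx : D.SupportedIn K x) : D.apply G x = x := by
  have h := hx (G - 1) (fun u hu => by simp [hG u hu])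
  rw [map_sub, map_one] at h
  exact sub_eq_zero.1 h

theorem supportedIn_wave (D : LineCalculus H) (K : Set ℝ) (x : H) (hx : D.SupportedIn K x)
    (t : ℝ) : D.SupportedIn K (D.wave t x) := by
  intro f hf
  rw [LineCalculus.wave, apply_comm, hx f hf, map_zero]

theorem supportedIn_sum (D : LineCalculus H) (K : Set ℝ) {ι : Type*} (s : Finset ι) (c : ι → ℂ)
    (x : ι → H) (hx : ∀ i, D.SupportedIn K (x i)) : D.SupportedIn K (∑ i ∈ s, c i • x i) := by
  intro f hf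
  rw [map_sum]
  refine Finset.sum_eq_zero fun i _ => ?_
  rw [map_smul, hx i f hf, smul_zero]

theorem smul_mem_M (M : VonNeumannAlgebra H) (c : ℂ) (a : H →L[ℂ] H) (ha : a ∈ M) :
    c • a ∈ M := by
  rw [mem_iff_commutes] at ha ⊢
  intro x' hx'
  rw [mul_smul_comm, smul_mul_assoc, ha x' hx']

/-- `Z` almost scalar on the vacuum is almost scalar on vectors approximated from `M'ξ`. -/
theorem almost_scalar (S : ModularDatum H) (Z x' : H →L[ℂ] H) (hZ : Z ∈ S.M)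
    (hx' : ∀ b ∈ S.M, b * x' = x' * b) (lam L ε ε' : ℝ) (hlam : 0 ≤ lam) (hL : ‖Z‖ ≤ L)
    (hlamL : lam ≤ L) (y : H) (hy : ‖x' S.vac - y‖ ≤ ε')
    (hZv : ‖Z S.vac - (lam : ℂ) • S.vac‖ ≤ ε) :
    ‖Z y - (lam : ℂ) • y‖ ≤ 2 * L * ε' + ‖x'‖ * ε := by
  have h1 : Z y - (lam : ℂ) • y = (Z (y - x' S.vac) - (lam : ℂ) • (y - x' S.vac)) +
      x' (Z S.vac - (lam : ℂ) • S.vac) := by
    have h2 : Z (x' S.vac) = x' (Z S.vac) := by
      have := congrArg (fun A : H →L[ℂ] H => A S.vac) (hx' Z hZ)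
      exact this
    simp only [map_sub, map_smul, smul_sub, h2]
    abel
  rw [h1]
  refine (norm_add_le _ _).trans (add_le_add ?_ ?_)
  · refine (norm_sub_le _ _).trans ?_
    have h3 : ‖y - x' S.vac‖ ≤ ε' := by rw [norm_sub_rev]; exact hy
    have h4 : ‖Z (y - x' S.vac)‖ ≤ L * ε' :=
      (Z.le_opNorm _).trans (mul_le_mul hL h3 (norm_nonneg _) ((norm_nonneg _).trans hL))
    have h5 : ‖(lam : ℂ) • (y - x' S.vac)‖ ≤ L * ε' := by
      rw [norm_smul, Complex.norm_real, Real.norm_eq_abs, abs_of_nonneg hlam]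
      exact mul_le_mul hlamL h3 (norm_nonneg _) (hlam.trans hlamL)
    linarith
  · exact (x'.le_opNorm _).trans (mul_le_mul_of_nonneg_left hZv (norm_nonneg _))

/-- conjugating a commutant element by the waves stays in the commutant -/
theorem commutant_flow (S : ModularDatum H) (x' : H →L[ℂ] H)
    (hx' : ∀ b ∈ S.M, b * x' = x' * b) (t : ℝ) :
    ∀ b ∈ S.M, b * S.flow t x' = S.flow t x' * b := by
  intro b hb
  have h1 := hx' _ (flow_mem S (-t) b hb)
  have h2 := congrArg (S.flow t) h1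
  rw [flow_mul, flow_mul] at h2
  have h3 : S.flow t (S.flow (-t) b) = b := by
    ext x
    simp only [flow_apply, neg_neg, wave_apply_neg, wave_neg_apply]
  rwa [h3] at h2

theorem norm_flow_le' (S : ModularDatum H) (t : ℝ) (b : H →L[ℂ] H) : ‖S.flow t b‖ ≤ ‖b‖ :=
  ContinuousLinearMap.opNorm_le_bound _ (norm_nonneg _) (fun x => norm_flow_le S t b x)

/-- The pair sum of the fourth moment is controlled. -/
theorem pair_sum_le (S : ModularDatum H) (a : H →L[ℂ] H) (ha : a ∈ S.M)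
    {ι : Type*} [Fintype ι] (w τ : ι → ℝ) (hw : ∀ i, 0 ≤ w i) (hw1 : ∑ i, w i = 1)
    (x' : H →L[ℂ] H) (hx' : ∀ b ∈ S.M, b * x' = x' * b) (ε ε' : ℝ)
    (hε' : ‖x' S.vac - a S.vac‖ ≤ ε')
    (hε : ‖(∑ i, (w i : ℂ) • S.D.wave (τ i) (a (star a S.vac))) -
      ((‖star a S.vac‖ ^ 2 : ℝ) : ℂ) • S.vac‖ ≤ ε) (i : ι) :
    ∑ j, w j * ‖star (S.flow (τ j) a) (S.flow (τ i) a S.vac)‖ ^ 2 ≤
      ‖a S.vac‖ * (‖star a S.vac‖ ^ 2 * ‖a S.vac‖ + (2 * ‖a‖ ^ 2 * ε' + ‖x'‖ * ε)) := by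
  set Z : H →L[ℂ] H := ∑ j, (w j : ℂ) • S.flow (τ j) (a * star a) with hZdef
  set y : H := S.flow (τ i) a S.vac with hy
  have hyn : ‖y‖ = ‖a S.vac‖ := by rw [hy, flow_vac, norm_wave]
  have hvac1 := S.norm_vac
  have haa : ‖a * star a‖ ≤ ‖a‖ ^ 2 := by
    refine (norm_mul_le _ _).trans ?_
    rw [norm_star, sq]
  have hZM : Z ∈ S.M := by
    refine sum_mem fun j _ => smul_mem_M _ _ _ (flow_mem S _ _ ?_)
    exact mul_mem ha (star_mem ha)
  have hZn : ‖Z‖ ≤ ‖a‖ ^ 2 := by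
    rw [hZdef]
    refine (norm_sum_le _ _).trans ?_
    calc ∑ j, ‖(w j : ℂ) • S.flow (τ j) (a * star a)‖ ≤ ∑ j, w j * ‖a‖ ^ 2 := by
          refine Finset.sum_le_sum fun j _ => ?_
          rw [norm_smul, Complex.norm_real, Real.norm_eq_abs, abs_of_nonneg (hw j)]
          exact mul_le_mul_of_nonneg_left ((norm_flow_le' S _ _).trans haa) (hw j)
      _ = ‖a‖ ^ 2 := by rw [← Finset.sum_mul, hw1, one_mul]
  have hlam : ‖star a S.vac‖ ^ 2 ≤ ‖a‖ ^ 2 := by
    have : ‖star a S.vac‖ ≤ ‖a‖ := by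
      refine ((star a).le_opNorm _).trans ?_
      rw [norm_star, hvac1, mul_one]
    exact pow_le_pow_left₀ (norm_nonneg _) this 2
  have hZv : ‖Z S.vac - ((‖star a S.vac‖ ^ 2 : ℝ) : ℂ) • S.vac‖ ≤ ε := by
    refine le_trans (le_of_eq ?_) hε
    congr 2
    rw [hZdef, ContinuousLinearMap.sum_apply]
    refine Finset.sum_congr rfl fun j _ => ?_
    change (w j : ℂ) • (S.flow (τ j) (a * star a) S.vac) = _
    rw [flow_vac]; rfl
  have hy' : ‖S.flow (τ i) x' S.vac - y‖ ≤ ε' := by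
    rw [hy, flow_vac, flow_vac, ← map_sub, norm_wave]
    exact hε'
  have key := almost_scalar S Z (S.flow (τ i) x') hZM (commutant_flow S x' hx' (τ i))
    (‖star a S.vac‖ ^ 2) (‖a‖ ^ 2) ε ε' (by positivity) hZn hlam y hy' hZv
  have hε0 : 0 ≤ ε := (norm_nonneg _).trans hε
  have key2 : ‖Z y‖ ≤ ‖star a S.vac‖ ^ 2 * ‖a S.vac‖ + (2 * ‖a‖ ^ 2 * ε' + ‖x'‖ * ε) := by
    have h1 : Z y = ((‖star a S.vac‖ ^ 2 : ℝ) : ℂ) • y +
        (Z y - ((‖star a S.vac‖ ^ 2 : ℝ) : ℂ) • y) := by abel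
    rw [h1]
    refine (norm_add_le _ _).trans (add_le_add ?_ (key.trans ?_))
    · rw [norm_smul, Complex.norm_real, Real.norm_eq_abs, abs_of_nonneg (by positivity), hyn]
    · exact add_le_add_right (mul_le_mul_of_nonneg_right (norm_flow_le' S _ _) hε0) _
  have hsum : ((∑ j, w j * ‖star (S.flow (τ j) a) y‖ ^ 2 : ℝ) : ℂ) = ⟪y, Z y⟫_ℂ := by
    rw [hZdef, ContinuousLinearMap.sum_apply, inner_sum]
    push_cast
    refine Finset.sum_congr rfl fun j _ => ?_
    change _ = ⟪y, (w j : ℂ) • (S.flow (τ j) (a * star a) y)⟫_ℂ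
    rw [inner_smul_right, flow_mul, ← flow_star]
    change _ = (w j : ℂ) * ⟪y, (S.flow (τ j) a) (star (S.flow (τ j) a) y)⟫_ℂ
    rw [← ContinuousLinearMap.adjoint_inner_left, ← ContinuousLinearMap.star_eq_adjoint,
      inner_self_eq_norm_sq_to_K]
    simp
  have h2 : (∑ j, w j * ‖star (S.flow (τ j) a) y‖ ^ 2) = ‖⟪y, Z y⟫_ℂ‖ := by
    rw [← hsum, Complex.norm_real, Real.norm_eq_abs, abs_of_nonneg]
    exact Finset.sum_nonneg fun j _ => mul_nonneg (hw j) (by positivity)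
  rw [h2]
  refine (norm_inner_le_norm _ _).trans ?_
  rw [hyn]
  exact mul_le_mul_of_nonneg_left key2 (norm_nonneg _)

end Crest.Agent.R084
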