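import Crest.Agent.R084.Core

/-! R084: random phases and truncation applied to the averaged family. -/

set_option autoImplicit false
set_option linter.unusedSectionVars false

namespace Crest.Agent.R084

open Filter MeasureTheory Crest.OpAlg
open scoped Topology InnerProductSpace

variable {H : Type*} [NormedAddCommGroup H] [InnerProductSpace ℂ H] [CompleteSpace H]

theorem exists_good_v (S : ModularDatum H) (T : H →L[ℂ] H) (K : Set ℝ)
    (a : H →L[ℂ] H) (ha : a ∈ S.M) (hsupp : S.D.SupportedIn K (a S.vac))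
    (ha2 : ‖a S.vac‖ ≤ 2) (E : ℝ) (hE : ‖star a S.vac‖ ^ 2 ≤ 4 * E)
    {ι : Type*} [Fintype ι] (w τ : ι → ℝ) (hw : ∀ i, 0 ≤ w i) (hw1 : ∑ i, w i = 1)
    (x' : H →L[ℂ] H) (hx' : ∀ b ∈ S.M, b * x' = x' * b) (c₁ ε ε' μ : ℝ) (hμ : 0 ≤ μ)
    (hε1 : ε ≤ 1) (hεε' : 2 * ‖a‖ ^ 2 * ε' + ‖x'‖ * ε ≤ 1)
    (hε' : ‖x' S.vac - a S.vac‖ ≤ ε')
    (hc₁ : c₁ ≤ ∑ i, w i * ‖T (S.D.wave (τ i) (a S.vac))‖ ^ 2)
    (hε2 : ‖(∑ i, (w i : ℂ) • S.D.wave (τ i) (star a (a S.vac))) -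
      ((‖a S.vac‖ ^ 2 : ℝ) : ℂ) • S.vac‖ ≤ ε)
    (hε3 : ‖(∑ i, (w i : ℂ) • S.D.wave (τ i) (a (star a S.vac))) -
      ((‖star a S.vac‖ ^ 2 : ℝ) : ℂ) • S.vac‖ ≤ ε) :
    ∃ v ∈ S.M, S.D.SupportedIn K (v S.vac) ∧
      c₁ - μ * (25 + (16 * E + 2)) ≤ ‖T (v S.vac)‖ ^ 2 - μ * ‖star v (v S.vac)‖ ^ 2 := by
  set b : ι → (H →L[ℂ] H) := fun i => ((Real.sqrt (w i) : ℝ) : ℂ) • S.flow (τ i) a with hb
  have hsq : ∀ i, ((Real.sqrt (w i) : ℝ) : ℂ) * ((Real.sqrt (w i) : ℝ) : ℂ) = (w i : ℂ) := by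
    intro i
    rw [← Complex.ofReal_mul, Real.mul_self_sqrt (hw i)]
  have hbn : ∀ i (x : H), ‖((Real.sqrt (w i) : ℝ) : ℂ) • x‖ ^ 2 = w i * ‖x‖ ^ 2 := by
    intro i x
    rw [norm_smul, Complex.norm_real, Real.norm_eq_abs, abs_of_nonneg (Real.sqrt_nonneg _),
      mul_pow, Real.sq_sqrt (hw i)]
  have hstar : ∀ i, star (b i) = ((Real.sqrt (w i) : ℝ) : ℂ) • star (S.flow (τ i) a) := by
    intro i
    simp only [hb, star_smul, RCLike.star_def, Complex.conj_ofReal]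
  obtain ⟨c, hc1, hc⟩ := exists_phases b T S.vac μ hμ
  set v : H →L[ℂ] H := ∑ i, c i • b i with hv
  refine ⟨v, ?_, ?_, le_trans ?_ hc⟩
  · exact sum_mem fun i _ => smul_mem_M _ _ _ (smul_mem_M _ _ _ (flow_mem S _ _ ha))
  · have : v S.vac = ∑ i, (c i * ((Real.sqrt (w i) : ℝ) : ℂ)) • S.D.wave (τ i) (a S.vac) := by
      rw [hv, ContinuousLinearMap.sum_apply]
      refine Finset.sum_congr rfl fun i _ => ?_
      change c i • (((Real.sqrt (w i) : ℝ) : ℂ) • S.flow (τ i) a S.vac) = _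
      rw [flow_vac, smul_smul]
    rw [this]
    exact supportedIn_sum _ _ _ _ _ fun i => supportedIn_wave _ _ _ hsupp _
  · have h1 : ∑ i, ‖T (b i S.vac)‖ ^ 2 = ∑ i, w i * ‖T (S.D.wave (τ i) (a S.vac))‖ ^ 2 := by
      refine Finset.sum_congr rfl fun i _ => ?_
      change ‖T (((Real.sqrt (w i) : ℝ) : ℂ) • S.flow (τ i) a S.vac)‖ ^ 2 = _
      rw [map_smul, hbn, flow_vac]
    have h2 : ‖∑ i, star (b i) (b i S.vac)‖ ^ 2 ≤ 25 := by
      have h3 : ∑ i, star (b i) (b i S.vac) =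
          ∑ i, (w i : ℂ) • S.D.wave (τ i) (star a (a S.vac)) := by
        refine Finset.sum_congr rfl fun i _ => ?_
        rw [hstar]
        change ((Real.sqrt (w i) : ℝ) : ℂ) • star (S.flow (τ i) a)
          (((Real.sqrt (w i) : ℝ) : ℂ) • S.flow (τ i) a S.vac) = _
        rw [map_smul, smul_smul, hsq, flow_star]
        have h4 : S.flow (τ i) (star a) (S.flow (τ i) a S.vac) =
            S.flow (τ i) (star a * a) S.vac := by rw [flow_mul]; rfl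
        rw [h4, flow_vac]; rfl
      rw [h3]
      have h5 : ‖∑ i, (w i : ℂ) • S.D.wave (τ i) (star a (a S.vac))‖ ≤ 5 := by
        have h6 : ∑ i, (w i : ℂ) • S.D.wave (τ i) (star a (a S.vac)) =
            ((∑ i, (w i : ℂ) • S.D.wave (τ i) (star a (a S.vac))) -
              ((‖a S.vac‖ ^ 2 : ℝ) : ℂ) • S.vac) + ((‖a S.vac‖ ^ 2 : ℝ) : ℂ) • S.vac := by abel
        rw [h6]
        refine (norm_add_le _ _).trans ?_
        rw [norm_smul, Complex.norm_real, Real.norm_eq_abs, abs_of_nonneg (by positivity),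
          S.norm_vac]
        nlinarith [norm_nonneg (a S.vac)]
      calc _ ≤ (5 : ℝ) ^ 2 := pow_le_pow_left₀ (norm_nonneg _) h5 2
        _ = 25 := by norm_num
    have h7 : ∑ i, ∑ j, ‖star (b j) (b i S.vac)‖ ^ 2 ≤ 16 * E + 2 := by
      have h8 : ∀ i, ∑ j, ‖star (b j) (b i S.vac)‖ ^ 2 =
          w i * ∑ j, w j * ‖star (S.flow (τ j) a) (S.flow (τ i) a S.vac)‖ ^ 2 := by
        intro i
        rw [Finset.mul_sum]
        refine Finset.sum_congr rfl fun j _ => ?_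
        rw [hstar]
        change ‖((Real.sqrt (w j) : ℝ) : ℂ) • star (S.flow (τ j) a)
          (((Real.sqrt (w i) : ℝ) : ℂ) • S.flow (τ i) a S.vac)‖ ^ 2 = _
        rw [map_smul, hbn, hbn]; ring
      have h9 : ∀ i, ∑ j, w j * ‖star (S.flow (τ j) a) (S.flow (τ i) a S.vac)‖ ^ 2 ≤
          16 * E + 2 := by
        intro i
        refine (pair_sum_le S a ha w τ hw hw1 x' hx' ε ε' hε' hε3 i).trans ?_
        have hE0 : 0 ≤ E := by
          have := sq_nonneg ‖star a S.vac‖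
          linarith
        have h10 : ‖star a S.vac‖ ^ 2 * ‖a S.vac‖ ≤ 4 * E * 2 :=
          mul_le_mul hE ha2 (norm_nonneg _) (by positivity)
        calc _ ≤ 2 * (4 * E * 2 + 1) := by
              refine mul_le_mul ha2 (add_le_add h10 hεε') ?_ (by norm_num)
              have := norm_nonneg (a S.vac)
              have h11 : 0 ≤ 2 * ‖a‖ ^ 2 * ε' + ‖x'‖ * ε := by
                have e1 : 0 ≤ ε' := (norm_nonneg _).trans hε'
                have e2 : 0 ≤ ε := (norm_nonneg _).trans hε3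
                positivity
              positivity
          _ = 16 * E + 2 := by ring
      calc _ = ∑ i, w i * ∑ j, w j * ‖star (S.flow (τ j) a) (S.flow (τ i) a S.vac)‖ ^ 2 :=
            Finset.sum_congr rfl fun i _ => h8 i
        _ ≤ ∑ i, w i * (16 * E + 2) :=
            Finset.sum_le_sum fun i _ => mul_le_mul_of_nonneg_left (h9 i) (hw i)
        _ = 16 * E + 2 := by rw [← Finset.sum_mul, hw1, one_mul]
    rw [h1]
    have h12 := mul_le_mul_of_nonneg_left (add_le_add h2 h7) hμ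
    linarith

/-- truncation followed by smoothing -/
theorem exists_bounded (S : ModularDatum H) (T : H →L[ℂ] H) (s δ : ℝ)
    (v : H →L[ℂ] H) (hv : v ∈ S.M)
    (hsupp : S.D.SupportedIn (Set.Icc (s - 2 * δ) (s + 2 * δ)) (v S.vac))
    (K : ℝ) (hK : 0 < K) (CK : ℝ) (g : ℝ → ℂ) (G : BoundedContinuousFunction ℝ ℂ)
    (hg : Integrable g) (hgC : (∫ t, ‖g t‖) ≤ CK)
    (hG : ∀ u : ℝ, G u = ∫ t, g t * Complex.exp (Complex.I * ((t * u : ℝ) : ℂ)))
    (hG1 : ∀ u, ‖G u‖ ≤ 1)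
    (hG2 : ∀ u ∈ Set.Icc (s - 2 * δ) (s + 2 * δ), G u = 1)
    (hG3 : ∀ u, u ∉ Set.Icc (s - 4 * δ) (s + 4 * δ) → G u = 0) :
    ∃ z ∈ S.M, ‖z‖ ≤ CK * Real.sqrt K ∧
      S.D.SupportedIn (Set.Icc (s - 4 * δ) (s + 4 * δ)) (z S.vac) ∧
      ‖T (v S.vac)‖ ^ 2 - (2 * ‖T‖ ^ 2 / K) * ‖star v (v S.vac)‖ ^ 2 ≤
        2 * ‖T (z S.vac)‖ ^ 2 := by
  obtain ⟨r, hr1, hr2, hr3⟩ := exists_truncation v K hK
  have hvr : v * r ∈ S.M := by
    rw [mem_iff_commutes]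
    intro x' hx'
    have h1 : x' * v = v * x' := (hx' v hv).symm
    have h2 : x' * star v = star v * x' := (hx' _ (star_mem hv)).symm
    rw [← mul_assoc, h1, mul_assoc, hr1 x' h1 h2, mul_assoc]
  obtain ⟨z, hzM, hzn, hz⟩ := exists_smear S g hg (v * r) hvr
  have hzv : z S.vac = S.D.apply G ((v * r) S.vac) := smear_vac S g hg G hG z (v * r) hz
  have hvrn : ‖v * r‖ ≤ Real.sqrt K :=
    ContinuousLinearMap.opNorm_le_bound _ (Real.sqrt_nonneg _) hr2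
  have hA : 0 ≤ ∫ t, ‖g t‖ := integral_nonneg fun t => norm_nonneg _
  refine ⟨z, hzM, hzn.trans (mul_le_mul hgC hvrn (norm_nonneg _) (hA.trans hgC)), ?_, ?_⟩
  · rw [hzv]; exact supportedIn_apply _ _ _ hG3 _
  · have hv1 : S.D.apply G (v S.vac) = v S.vac := apply_eq_self _ _ _ hG2 _ hsupp
    have hGn : ‖G‖ ≤ 1 := (BoundedContinuousFunction.norm_le zero_le_one).2 hG1
    have h1 : ‖v S.vac - z S.vac‖ ≤ (1 / Real.sqrt K) * ‖star v (v S.vac)‖ := by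
      rw [hzv, ← hv1, ← map_sub, hv1]
      refine (apply_norm_le' _ _ _).trans ?_
      refine le_trans ?_ (hr3 S.vac)
      calc _ ≤ 1 * ‖v S.vac - (v * r) S.vac‖ := mul_le_mul_of_nonneg_right hGn (norm_nonneg _)
        _ = _ := by rw [one_mul]; rfl
    have h2 : ‖T (v S.vac)‖ ≤ ‖T (z S.vac)‖ + ‖T‖ * ((1 / Real.sqrt K) *
        ‖star v (v S.vac)‖) := by
      have h3 : T (v S.vac) = T (z S.vac) + T (v S.vac - z S.vac) := by
        rw [← map_add, add_sub_cancel]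
      rw [h3]
      refine (norm_add_le _ _).trans (add_le_add le_rfl ?_)
      exact (T.le_opNorm _).trans (mul_le_mul_of_nonneg_left h1 (norm_nonneg _))
    have h4 : ‖T (v S.vac)‖ ^ 2 ≤ 2 * ‖T (z S.vac)‖ ^ 2 +
        2 * (‖T‖ * ((1 / Real.sqrt K) * ‖star v (v S.vac)‖)) ^ 2 := by
      have h5 := pow_le_pow_left₀ (norm_nonneg _) h2 2
      nlinarith [sq_nonneg (‖T (z S.vac)‖ - ‖T‖ * ((1 / Real.sqrt K) * ‖star v (v S.vac)‖))]
    have h6 : 2 * (‖T‖ * ((1 / Real.sqrt K) * ‖star v (v S.vac)‖)) ^ 2 =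
        (2 * ‖T‖ ^ 2 / K) * ‖star v (v S.vac)‖ ^ 2 := by
      rw [mul_pow, mul_pow, div_pow, Real.sq_sqrt hK.le]
      ring
    linarith

end Crest.Agent.R084
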