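import Mathlib
import Crest.Prelude.Def_ModularData

set_option autoImplicit false

namespace Crest.Agent.R084

open Filter MeasureTheory Crest.OpAlg
open scoped Topology InnerProductSpace

variable {H : Type*} [NormedAddCommGroup H] [InnerProductSpace ℂ H] [CompleteSpace H]

/-- An operator commuting with everything that commutes with `M` lies in `M`. -/
theorem mem_of_commute_commutant (S : ModularDatum H) (b : H →L[ℂ] H)
    (hb : ∀ x' : H →L[ℂ] H, (∀ a ∈ S.M, a * x' = x' * a) → x' * b = b * x') : b ∈ S.M := by
  rw [← VonNeumannAlgebra.commutant_commutant S.M, VonNeumannAlgebra.mem_commutant_iff]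
  intro g hg
  rw [VonNeumannAlgebra.mem_commutant_iff] at hg
  exact hb g hg

/-- The subspace `M' ξ`. -/
noncomputable def commVac (S : ModularDatum H) : Submodule ℂ H :=
  (S.M.commutant.toStarSubalgebra.toSubalgebra.toSubmodule).map
    (ContinuousLinearMap.apply ℂ H S.vac).toLinearMap

theorem mem_commVac (S : ModularDatum H) (x : H) :
    x ∈ commVac S ↔ ∃ x' : H →L[ℂ] H, (∀ a ∈ S.M, a * x' = x' * a) ∧ x' S.vac = x := by
  constructor
  · rintro ⟨x', hx', rfl⟩
    exact ⟨x', VonNeumannAlgebra.mem_commutant_iff.mp hx', rfl⟩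
  · rintro ⟨x', hx', rfl⟩
    exact ⟨x', VonNeumannAlgebra.mem_commutant_iff.mpr hx', rfl⟩

theorem commVac_dense (S : ModularDatum H) : (commVac S).topologicalClosure = ⊤ := by
  set N := (commVac S).topologicalClosure with hN
  have : CompleteSpace N := (commVac S).isClosed_topologicalClosure.completeSpace_coe
  have hP : IsStarProjection N.starProjection := isStarProjection_starProjection
  have hmem : N.starProjection ∈ S.M := by
    rw [VonNeumannAlgebra.IsStarProjection.mem_iff hP]
    intro y hy
    rw [Submodule.range_starProjection]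
    intro x hx
    have hy' : ∀ a ∈ S.M, a * y = y * a := VonNeumannAlgebra.mem_commutant_iff.mp hy
    have h1 : ∀ z ∈ commVac S, y z ∈ commVac S := by
      intro z hz
      obtain ⟨x', hx', rfl⟩ := (mem_commVac S z).mp hz
      refine (mem_commVac S _).mpr ⟨y * x', fun a ha => ?_, rfl⟩
      rw [← mul_assoc, hy' a ha, mul_assoc, hx' a ha, mul_assoc]
    have h2 : N ≤ N.comap (y : H →ₗ[ℂ] H) := by
      apply Submodule.topologicalClosure_minimal
      · intro z hz
        exact (commVac S).le_topologicalClosure (h1 z hz)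
      · exact IsClosed.preimage y.continuous (commVac S).isClosed_topologicalClosure
    exact h2 hx
  have hvac : S.vac ∈ N := by
    apply (commVac S).le_topologicalClosure
    exact (mem_commVac S _).mpr ⟨1, fun a _ => by simp, rfl⟩
  have h3 : (1 : H →L[ℂ] H) - N.starProjection = 0 := by
    apply S.separating _ (sub_mem (one_mem _) hmem)
    simp [Submodule.starProjection_eq_self_iff.mpr hvac]
  rw [Submodule.eq_top_iff']
  intro x
  rw [← Submodule.starProjection_eq_self_iff]
  have h4 := congrArg (fun (f : H →L[ℂ] H) => f x) h3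
  simp only [sub_apply, one_apply_eq_self,
    zero_apply, sub_eq_zero] at h4
  exact h4.symm

/-- (C) the commutant is cyclic. -/
theorem commutant_dense (S : ModularDatum H) (x : H) (ε : ℝ) (hε : 0 < ε) :
    ∃ x' : H →L[ℂ] H, (∀ a ∈ S.M, a * x' = x' * a) ∧ ‖x' S.vac - x‖ < ε := by
  have hx : x ∈ (commVac S).topologicalClosure := by rw [commVac_dense]; trivial
  rw [← SetLike.mem_coe, Submodule.topologicalClosure_coe, Metric.mem_closure_iff] at hx
  obtain ⟨y, hy, hxy⟩ := hx ε hε
  obtain ⟨x', hx', rfl⟩ := (mem_commVac S y).mp hy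
  exact ⟨x', hx', by rwa [← dist_eq_norm, dist_comm]⟩

end Crest.Agent.R084
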