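import Mathlib
import Crest.Prelude.Def_ModularData

/-! R084: window averages of vector valued functions. -/

set_option autoImplicit false

namespace Crest.Agent.R084

open Filter MeasureTheory Crest.OpAlg
open scoped Topology InnerProductSpace

section Wavg

variable {E F : Type*} [NormedAddCommGroup E] [NormedSpace ℝ E]
  [NormedAddCommGroup F] [NormedSpace ℝ F]

/-- Window average of a vector valued function. -/
noncomputable def wavg (k : ℕ) (f : ℝ → E) : E := ⨍ t in Set.Icc (-(k : ℝ)) (k : ℝ), f t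

theorem wavg_eq (k : ℕ) (f : ℝ → E) :
    wavg k f = (2 * (k : ℝ))⁻¹ • ∫ t in Set.Icc (-(k : ℝ)) (k : ℝ), f t := by
  rw [wavg, setAverage_eq, Real.volume_real_Icc_of_le (by linarith [k.cast_nonneg (α := ℝ)])]
  congr 2
  ring

theorem wavg_norm_le (k : ℕ) (f : ℝ → E) (C : ℝ) (hC : 0 ≤ C) (hf : ∀ t, ‖f t‖ ≤ C) :
    ‖wavg k f‖ ≤ C := by
  rw [wavg_eq, norm_smul, norm_inv, Real.norm_eq_abs, abs_of_nonneg (by positivity)]
  have h1 : ‖∫ t in Set.Icc (-(k : ℝ)) (k : ℝ), f t‖ ≤
      C * volume.real (Set.Icc (-(k : ℝ)) (k : ℝ)) :=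
    norm_setIntegral_le_of_norm_le_const measure_Icc_lt_top (fun t _ => hf t)
  rw [Real.volume_real_Icc_of_le (by linarith [k.cast_nonneg (α := ℝ)])] at h1
  rcases Nat.eq_zero_or_pos k with hk | hk
  · subst hk; simpa using hC
  · have hk' : (0 : ℝ) < k := by exact_mod_cast hk
    rw [inv_mul_le_iff₀ (by positivity)]
    linarith

theorem wavg_const (k : ℕ) (hk : 1 ≤ k) [CompleteSpace E] (x : E) : wavg k (fun _ => x) = x := by
  have hk' : (0 : ℝ) < k := by exact_mod_cast hk
  rw [wavg_eq, setIntegral_const, Real.volume_real_Icc_of_le (by linarith), smul_smul]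
  rw [show (2 * (k : ℝ))⁻¹ * ((k : ℝ) - -(k : ℝ)) = 1 by field_simp; ring, one_smul]

theorem intOn (f : ℝ → E) (hf : Continuous f) (k : ℕ) :
    IntegrableOn f (Set.Icc (-(k : ℝ)) (k : ℝ)) := hf.continuousOn.integrableOn_Icc

theorem wavg_add (k : ℕ) (f g : ℝ → E) (hf : Continuous f) (hg : Continuous g) :
    wavg k (fun t => f t + g t) = wavg k f + wavg k g := by
  rw [wavg_eq, wavg_eq, wavg_eq, integral_add (intOn f hf k) (intOn g hg k), smul_add]

theorem wavg_sub (k : ℕ) (f g : ℝ → E) (hf : Continuous f) (hg : Continuous g) :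
    wavg k (fun t => f t - g t) = wavg k f - wavg k g := by
  rw [wavg_eq, wavg_eq, wavg_eq, integral_sub (intOn f hf k) (intOn g hg k), smul_sub]

theorem wavg_clm [CompleteSpace E] [CompleteSpace F] (k : ℕ) (L : E →L[ℝ] F) (f : ℝ → E)
    (hf : Continuous f) : wavg k (fun t => L (f t)) = L (wavg k f) := by
  rw [wavg_eq, wavg_eq, L.integral_comp_comm (intOn f hf k), map_smul]

theorem wavg_mono (k : ℕ) (f g : ℝ → ℝ) (hf : Continuous f) (hg : Continuous g)
    (hfg : ∀ t, f t ≤ g t) : wavg k f ≤ wavg k g := by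
  rw [wavg_eq, wavg_eq]
  refine smul_le_smul_of_nonneg_left ?_ (by positivity)
  exact setIntegral_mono (intOn f hf k) (intOn g hg k) hfg

/-- Shifting the argument does not change limits of window averages. -/
theorem wavg_shift (f : ℝ → E) (hf : Continuous f) (C : ℝ) (hC : ∀ t, ‖f t‖ ≤ C) (s : ℝ) :
    Tendsto (fun k : ℕ => wavg k (fun t => f (t + s)) - wavg k f) atTop (𝓝 0) := by
  have hbd : ∀ k : ℕ, ‖wavg k (fun t => f (t + s)) - wavg k f‖ ≤
      (2 * (k : ℝ))⁻¹ * (2 * C * |s|) := by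
    intro k
    have hk : (0 : ℝ) ≤ k := k.cast_nonneg
    rw [wavg_eq, wavg_eq, ← smul_sub, norm_smul, norm_inv, Real.norm_eq_abs,
      abs_of_nonneg (by positivity)]
    refine mul_le_mul_of_nonneg_left ?_ (by positivity)
    rw [integral_Icc_eq_integral_Ioc, integral_Icc_eq_integral_Ioc,
      ← intervalIntegral.integral_of_le (by linarith),
      ← intervalIntegral.integral_of_le (by linarith),
      intervalIntegral.integral_comp_add_right (fun t => f t) s]
    have hint : ∀ a b : ℝ, IntervalIntegrable f volume a b := fun a b => hf.intervalIntegrable a b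
    have h1 : (∫ x in (-(k : ℝ) + s)..(k + s), f x) - ∫ x in (-(k : ℝ))..k, f x =
        (∫ x in (k : ℝ)..(k + s), f x) - ∫ x in (-(k : ℝ))..(-(k : ℝ) + s), f x := by
      rw [← intervalIntegral.integral_add_adjacent_intervals
        (hint (-(k : ℝ)) (-(k : ℝ) + s)) (hint (-(k : ℝ) + s) k),
        ← intervalIntegral.integral_add_adjacent_intervals
        (hint (-(k : ℝ) + s) (k : ℝ)) (hint k (k + s))]
      abel
    rw [h1]
    refine (norm_sub_le _ _).trans ?_
    have h2 : ‖∫ x in (k : ℝ)..(k + s), f x‖ ≤ C * |(k + s) - k| :=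
      intervalIntegral.norm_integral_le_of_norm_le_const (fun x _ => hC x)
    have h3 : ‖∫ x in (-(k : ℝ))..(-(k : ℝ) + s), f x‖ ≤ C * |(-(k : ℝ) + s) - -(k : ℝ)| :=
      intervalIntegral.norm_integral_le_of_norm_le_const (fun x _ => hC x)
    rw [show ((k : ℝ) + s) - k = s by ring] at h2
    rw [show (-(k : ℝ) + s) - -(k : ℝ) = s by ring] at h3
    linarith
  refine squeeze_zero_norm hbd ?_
  have h1 : Tendsto (fun k : ℕ => (2 * (k : ℝ))⁻¹) atTop (𝓝 0) := by
    apply Tendsto.inv_tendsto_atTop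
    exact (tendsto_natCast_atTop_atTop).const_mul_atTop two_pos
  simpa using h1.mul_const (2 * C * |s|)

end Wavg

end Crest.Agent.R084
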