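import Crest.Agent.R084.Vac

/-! R084: smearing of algebra elements along the modular flow, density of `M'ξ`. -/

set_option autoImplicit false
set_option linter.unusedSectionVars false

namespace Crest.Agent.R084

open Filter MeasureTheory Crest.OpAlg
open scoped Topology InnerProductSpace

variable {H : Type*} [NormedAddCommGroup H] [InnerProductSpace ℂ H] [CompleteSpace H]

theorem mem_iff_commutes (M : VonNeumannAlgebra H) (a : H →L[ℂ] H) :
    a ∈ M ↔ ∀ x' : H →L[ℂ] H, (∀ b ∈ M, b * x' = x' * b) → x' * a = a * x' := by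
  conv_lhs => rw [← VonNeumannAlgebra.commutant_commutant M]
  rw [VonNeumannAlgebra.mem_commutant_iff]
  simp only [VonNeumannAlgebra.mem_commutant_iff]

theorem flow_apply (S : ModularDatum H) (t : ℝ) (b : H →L[ℂ] H) (x : H) :
    S.flow t b x = S.D.wave t (b (S.D.wave (-t) x)) := rfl

theorem flow_mem (S : ModularDatum H) (t : ℝ) (b : H →L[ℂ] H) (hb : b ∈ S.M) :
    S.flow t b ∈ S.M := S.flow_mem t b hb

theorem continuous_flow (S : ModularDatum H) (b : H →L[ℂ] H) (x : H) :
    Continuous fun t => S.flow t b x := by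
  simp only [flow_apply]
  refine continuous_wave S.D _ (b.continuous.comp ?_)
  exact (continuous_wave_apply S.D x).comp continuous_neg

theorem norm_flow_le (S : ModularDatum H) (t : ℝ) (b : H →L[ℂ] H) (x : H) :
    ‖S.flow t b x‖ ≤ ‖b‖ * ‖x‖ := by
  rw [flow_apply, norm_wave]
  refine (b.le_opNorm _).trans ?_
  rw [norm_wave]

theorem flow_vac (S : ModularDatum H) (t : ℝ) (b : H →L[ℂ] H) :
    S.flow t b S.vac = S.D.wave t (b S.vac) := by
  rw [flow_apply, wave_vac]

theorem flow_star (S : ModularDatum H) (t : ℝ) (b : H →L[ℂ] H) :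
    star (S.flow t b) = S.flow t (star b) := by
  simp only [ModularDatum.flow, star_mul, star_wave, neg_neg, mul_assoc]

theorem flow_mul (S : ModularDatum H) (t : ℝ) (a b : H →L[ℂ] H) :
    S.flow t (a * b) = S.flow t a * S.flow t b := by
  have h : S.flow t a * S.flow t b =
      S.D.wave t * a * (S.D.wave (-t) * S.D.wave t) * b * S.D.wave (-t) := by
    simp only [ModularDatum.flow, mul_assoc]
  rw [h, wave_neg_mul]
  simp only [ModularDatum.flow, mul_assoc, one_mul]

/-- (S) smearing. -/
theorem exists_smear (S : ModularDatum H) (g : ℝ → ℂ) (hg : Integrable g)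
    (b : H →L[ℂ] H) (hb : b ∈ S.M) :
    ∃ a : H →L[ℂ] H, a ∈ S.M ∧ ‖a‖ ≤ (∫ t, ‖g t‖) * ‖b‖ ∧
      ∀ x, a x = ∫ t, g t • S.flow t b x := by
  have hint : ∀ x, Integrable fun t => g t • S.flow t b x := fun x =>
    integrable_smul_cont g hg _ (continuous_flow S b x) _ (fun t => norm_flow_le S t b x)
  have hA : 0 ≤ ∫ t, ‖g t‖ := integral_nonneg fun t => norm_nonneg _
  let a : H →L[ℂ] H := LinearMap.mkContinuous
    { toFun := fun x => ∫ t, g t • S.flow t b x
      map_add' := fun x y => by
        simp only [map_add, smul_add]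
        exact integral_add (hint x) (hint y)
      map_smul' := fun c x => by
        simp only [map_smul, RingHom.id_apply]
        rw [← integral_smul]
        refine integral_congr_ae (Eventually.of_forall fun t => ?_)
        exact smul_comm _ _ _ } ((∫ t, ‖g t‖) * ‖b‖)
    (fun x => by
      refine (norm_integral_smul_le g hg _ (‖b‖ * ‖x‖) fun t => norm_flow_le S t b x).trans ?_
      rw [mul_assoc])
  have ha : ∀ x, a x = ∫ t, g t • S.flow t b x := fun x => rfl
  refine ⟨a, ?_, LinearMap.mkContinuous_norm_le _ (mul_nonneg hA (norm_nonneg _)) _, ha⟩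
  rw [mem_iff_commutes]
  intro x' hx'
  ext x
  change x' (a x) = a (x' x)
  rw [ha, ha, ← ContinuousLinearMap.integral_comp_comm x' (hint x)]
  refine integral_congr_ae (Eventually.of_forall fun t => ?_)
  simp only [map_smul]
  have h := congrArg (fun A : H →L[ℂ] H => A x) (hx' (S.flow t b) (flow_mem S t b hb))
  exact congrArg _ h.symm

/-- smearing acts on the vacuum orbit by the functional calculus -/
theorem smear_vac (S : ModularDatum H) (g : ℝ → ℂ) (hg : Integrable g)
    (G : BoundedContinuousFunction ℝ ℂ)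
    (hG : ∀ u : ℝ, G u = ∫ t, g t * Complex.exp (Complex.I * ((t * u : ℝ) : ℂ)))
    (a b : H →L[ℂ] H) (ha : ∀ x, a x = ∫ t, g t • S.flow t b x) :
    a S.vac = S.D.apply G (b S.vac) := by
  rw [ha, ← integral_wave S.D g hg G hG]
  simp only [flow_vac]

/-- (C) the commutant is cyclic. -/
theorem commutant_dense' (S : ModularDatum H) (x : H) (ε : ℝ) (hε : 0 < ε) :
    ∃ x' : H →L[ℂ] H, (∀ a ∈ S.M, a * x' = x' * a) ∧ ‖x' S.vac - x‖ < ε := by
  let N : Submodule ℂ H :=
    { carrier := {y | ∃ x' ∈ S.M.commutant, x' S.vac = y}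
      add_mem' := by
        rintro _ _ ⟨a, ha, rfl⟩ ⟨b, hb, rfl⟩
        exact ⟨a + b, add_mem ha hb, rfl⟩
      zero_mem' := ⟨0, zero_mem _, rfl⟩
      smul_mem' := by
        rintro c _ ⟨a, ha, rfl⟩
        refine ⟨c • a, ?_, rfl⟩
        rw [VonNeumannAlgebra.mem_commutant_iff] at ha ⊢
        intro g hg
        rw [mul_smul_comm, smul_mul_assoc, ha g hg] }
  let K : Submodule ℂ H := N.topologicalClosure
  have hNK : N ≤ K := N.le_topologicalClosure
  have hKc : CompleteSpace K := N.isClosed_topologicalClosure.completeSpace_coe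
  have hP : K.starProjection ∈ S.M := by
    rw [VonNeumannAlgebra.IsStarProjection.mem_iff isStarProjection_starProjection]
    intro y hy
    rw [Submodule.range_starProjection, Module.End.mem_invtSubmodule]
    intro z hz
    rw [Submodule.mem_comap]
    change y z ∈ closure (N : Set H)
    refine map_mem_closure y.continuous hz ?_
    rintro _ ⟨x', hx', rfl⟩
    exact ⟨y * x', mul_mem hy hx', rfl⟩
  have hvac : S.vac ∈ K := hNK ⟨1, one_mem _, rfl⟩
  have h1 : (1 : H →L[ℂ] H) - K.starProjection = 0 := by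
    refine S.separating _ (sub_mem (one_mem _) hP) ?_
    simp only [ContinuousLinearMap.sub_apply, ContinuousLinearMap.one_apply, sub_eq_zero]
    exact (Submodule.starProjection_eq_self_iff.2 hvac).symm
  have h2 : x ∈ K := by
    rw [← Submodule.starProjection_eq_self_iff, ← sub_eq_zero.1 h1]
    rfl
  have h3 : x ∈ closure (N : Set H) := h2
  obtain ⟨z, hz, hzx⟩ := Metric.mem_closure_iff.1 h3 ε hε
  obtain ⟨x', hx', rfl⟩ := hz
  refine ⟨x', VonNeumannAlgebra.mem_commutant_iff.1 hx', ?_⟩
  rwa [dist_comm, dist_eq_norm] at hzx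

end Crest.Agent.R084
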