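import Crest.Agent.R084.Calc

/-! R084: the vacuum vector is fixed by `e^{itD}`, and the adjoint bound. -/

set_option autoImplicit false
set_option linter.unusedSectionVars false

namespace Crest.Agent.R084

open Filter MeasureTheory Crest.OpAlg
open scoped Topology InnerProductSpace

variable {H : Type*} [NormedAddCommGroup H] [InnerProductSpace ℂ H] [CompleteSpace H]

/-- An antilinear isometry flips inner products. -/
theorem inner_antilinear (J : H ≃ₗᵢ⋆[ℂ] H) (x y : H) : ⟪J x, J y⟫_ℂ = ⟪y, x⟫_ℂ := by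
  rw [inner_eq_sum_norm_sq_div_four, inner_eq_sum_norm_sq_div_four]
  have h1 : ‖J x + J y‖ = ‖y + x‖ := by rw [← map_add, J.norm_map, add_comm]
  have h2 : ‖J x - J y‖ = ‖y - x‖ := by rw [← map_sub, J.norm_map, norm_sub_rev]
  have h3 : ‖J x - (RCLike.I : ℂ) • J y‖ = ‖y - (RCLike.I : ℂ) • x‖ := by
    have : J x - (RCLike.I : ℂ) • J y = J (x + (RCLike.I : ℂ) • y) := by
      rw [map_add, LinearIsometryEquiv.map_smulₛₗ]; simp [sub_eq_add_neg]
    rw [this, J.norm_map]
    have h : y - (RCLike.I : ℂ) • x = (-(RCLike.I : ℂ)) • (x + (RCLike.I : ℂ) • y) := by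
      simp only [smul_add, smul_smul]; simp; abel
    rw [h, norm_smul]; simp
  have h4 : ‖J x + (RCLike.I : ℂ) • J y‖ = ‖y + (RCLike.I : ℂ) • x‖ := by
    have : J x + (RCLike.I : ℂ) • J y = J (x - (RCLike.I : ℂ) • y) := by
      rw [map_sub, LinearIsometryEquiv.map_smulₛₗ]; simp [sub_eq_add_neg]
    rw [this, J.norm_map]
    have h : y + (RCLike.I : ℂ) • x = ((RCLike.I : ℂ)) • (x - (RCLike.I : ℂ) • y) := by
      simp only [smul_sub, smul_smul]; simp; abel
    rw [h, norm_smul]; simp
  rw [h1, h2, h3, h4]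

/-- multiplication of a compactly supported bounded continuous function by a continuous one -/
theorem exists_mul_compact (φ : ℝ → ℂ) (hφ : Continuous φ) (f : BoundedContinuousFunction ℝ ℂ)
    (hf : HasCompactSupport (f : ℝ → ℂ)) :
    ∃ F : BoundedContinuousFunction ℝ ℂ, (∀ u, F u = φ u * f u) ∧
      HasCompactSupport (F : ℝ → ℂ) := by
  have hc : Continuous fun u => φ u * f u := hφ.mul f.continuous
  have hs : HasCompactSupport fun u => φ u * f u := hf.mul_left
  obtain ⟨C, hC⟩ := hs.exists_bound_of_continuous hc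
  exact ⟨BoundedContinuousFunction.ofNormedAddCommGroup _ hc C hC, fun u => rfl, hs⟩

theorem continuous_expHalf : Continuous fun u : ℝ => ((Real.exp (u / 2) : ℝ) : ℂ) := by
  fun_prop

/-- every algebra element gives a pair in the Tomita graph. -/
theorem halfExp_of_mem (S : ModularDatum H) (a : H →L[ℂ] H) (ha : a ∈ S.M) :
    S.D.HalfExp (a S.vac) (S.J (star a S.vac)) := by
  have h : ((a S.vac, star a S.vac) : H × H) ∈
      closure (Set.range fun a : S.M => ((a : H →L[ℂ] H) S.vac, star (a : H →L[ℂ] H) S.vac)) :=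
    subset_closure ⟨⟨a, ha⟩, rfl⟩
  rw [S.tomita] at h
  exact h

theorem inner_of_halfExp (S : ModularDatum H) (x z : H) (h : S.D.HalfExp x z) :
    ⟪z, S.J S.vac⟫_ℂ = ⟪x, S.vac⟫_ℂ := by
  have h1 : ((x, S.J z) : H × H) ∈
      closure (Set.range fun a : S.M => ((a : H →L[ℂ] H) S.vac, star (a : H →L[ℂ] H) S.vac)) := by
    rw [S.tomita]
    change S.D.HalfExp x (S.J (S.J z))
    rw [S.J_J]; exact h
  have h2 : closure (Set.range fun a : S.M =>
      ((a : H →L[ℂ] H) S.vac, star (a : H →L[ℂ] H) S.vac)) ⊆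
      {p : H × H | ⟪S.vac, p.2⟫_ℂ = ⟪p.1, S.vac⟫_ℂ} := by
    refine closure_minimal ?_ (isClosed_eq (by fun_prop) (by fun_prop))
    rintro _ ⟨a, rfl⟩
    change ⟪S.vac, star (a : H →L[ℂ] H) S.vac⟫_ℂ = ⟪(a : H →L[ℂ] H) S.vac, S.vac⟫_ℂ
    rw [ContinuousLinearMap.star_eq_adjoint, ContinuousLinearMap.adjoint_inner_right]
  have h3 : ⟪S.vac, S.J z⟫_ℂ = ⟪x, S.vac⟫_ℂ := h2 h1
  rw [← h3]
  have h4 := inner_antilinear S.J (S.J S.vac) z
  rw [S.J_J] at h4
  rw [h4]

theorem inner_apply_star (D : LineCalculus H) (f : BoundedContinuousFunction ℝ ℂ) (x y : H) :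
    ⟪D.apply (star f) x, y⟫_ℂ = ⟪x, D.apply f y⟫_ℂ := by
  rw [map_star, ContinuousLinearMap.star_eq_adjoint, ContinuousLinearMap.adjoint_inner_left]

/-- `(e^{u/2} f)(D) Jξ = f(D) ξ` for compactly supported `f`. -/
theorem apply_expHalf_J_vac (S : ModularDatum H) (f F : BoundedContinuousFunction ℝ ℂ)
    (hF : ∀ u, F u = ((Real.exp (u / 2) : ℝ) : ℂ) * f u) :
    S.D.apply F (S.J S.vac) = S.D.apply f S.vac := by
  refine ext_inner_left ℂ fun w => ?_
  rw [← inner_apply_star, ← inner_apply_star]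
  refine inner_of_halfExp S _ _ ?_
  intro f' g' hfg
  rw [← apply_mul, ← apply_mul]
  congr 2
  ext u
  simp only [BoundedContinuousFunction.coe_mul, Pi.mul_apply,
    BoundedContinuousFunction.star_apply, hF, hfg, star_mul', RCLike.star_def,
    Complex.conj_ofReal]
  ring

/-- `(e^u f)(D) ξ = f(D) ξ` for compactly supported `f`. -/
theorem apply_exp_vac (S : ModularDatum H) (f F : BoundedContinuousFunction ℝ ℂ)
    (hf : HasCompactSupport (f : ℝ → ℂ))
    (hF : ∀ u, F u = ((Real.exp u : ℝ) : ℂ) * f u) :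
    S.D.apply F S.vac = S.D.apply f S.vac := by
  obtain ⟨F1, hF1, hF1c⟩ := exists_mul_compact _ continuous_expHalf f hf
  have h1 := apply_expHalf_J_vac S f F1 hF1
  have h2 := halfExp_of_mem S 1 (one_mem _)
  simp only [star_one, ContinuousLinearMap.one_apply] at h2
  have h3 := h2 F1 F ?_
  · rw [← h3, h1]
  · intro u
    rw [hF, hF1]
    have : ((Real.exp u : ℝ) : ℂ) = ((Real.exp (u / 2) : ℝ) : ℂ) * ((Real.exp (u / 2) : ℝ) : ℂ) := by
      rw [← Complex.ofReal_mul, ← Real.exp_add]; congr 2; ring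
    rw [this]; ring

/-- (V) the vacuum is fixed. -/
theorem wave_vac (S : ModularDatum H) (t : ℝ) : S.D.wave t S.vac = S.vac := by
  rw [← sub_eq_zero]
  refine eq_zero_of_compact S.D _ fun f hf => ?_
  -- the removable singularity quotient
  set A : ℝ → ℂ := dslope (fun u : ℝ => Complex.exp (Complex.I * ((t * u : ℝ) : ℂ))) 0 with hA
  set B : ℝ → ℝ := dslope Real.exp 0 with hB
  have hd1 : Differentiable ℝ (fun u : ℝ => Complex.exp (Complex.I * ((t * u : ℝ) : ℂ))) := by
    fun_prop
  have hd2 : Differentiable ℝ Real.exp := Real.differentiable_exp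
  have hAc : Continuous A := by
    rw [continuous_iff_continuousAt]
    intro u
    by_cases hu : u = 0
    · subst hu; exact continuousAt_dslope_same.2 (hd1 0)
    · exact (continuousAt_dslope_of_ne hu).2 (hd1.continuous.continuousAt)
  have hBc : Continuous B := by
    rw [continuous_iff_continuousAt]
    intro u
    by_cases hu : u = 0
    · subst hu; exact continuousAt_dslope_same.2 (hd2 0)
    · exact (continuousAt_dslope_of_ne hu).2 (hd2.continuous.continuousAt)
  have hA1 : ∀ u : ℝ, ((u : ℝ) : ℂ) * A u = Complex.exp (Complex.I * ((t * u : ℝ) : ℂ)) - 1 := by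
    intro u
    have := sub_smul_dslope (fun u : ℝ => Complex.exp (Complex.I * ((t * u : ℝ) : ℂ))) 0 u
    simp only [sub_zero, mul_zero, Complex.ofReal_zero, Complex.exp_zero] at this
    rw [← this]
    simp [hA]
  have hB1 : ∀ u : ℝ, u * B u = Real.exp u - 1 := by
    intro u
    have := sub_smul_dslope Real.exp 0 u
    simpa using this
  have hB0 : ∀ u : ℝ, B u ≠ 0 := by
    intro u
    by_cases hu : u = 0
    · subst hu; simp [hB, dslope_same]
    · intro h0
      have := hB1 u
      rw [h0, mul_zero] at this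
      have h2 : Real.exp u = 1 := by linarith
      exact hu (Real.exp_eq_one_iff u |>.1 h2)
  obtain ⟨F, hF, hFc⟩ := exists_mul_compact (fun u => A u / (B u : ℂ))
    (hAc.div (Complex.continuous_ofReal.comp hBc) (fun u => by exact_mod_cast hB0 u)) f hf
  obtain ⟨F', hF', -⟩ := exists_mul_compact (fun u => ((Real.exp u : ℝ) : ℂ)) (by fun_prop) F hFc
  have h1 := apply_exp_vac S F F' hFc hF'
  have h2 : F' - F = f * (LineCalculus.character t - 1) := by
    ext u
    simp only [BoundedContinuousFunction.coe_sub, BoundedContinuousFunction.coe_mul,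
      Pi.sub_apply, Pi.mul_apply, BoundedContinuousFunction.coe_one, Pi.one_apply, hF', hF,
      character_apply]
    rw [← hA1 u]
    have h3 : ((Real.exp u : ℝ) : ℂ) = (u : ℂ) * (B u : ℂ) + 1 := by
      have h5 : Real.exp u = u * B u + 1 := by rw [hB1 u]; ring
      rw [h5]; push_cast; ring
    have h4 : (B u : ℂ) ≠ 0 := by exact_mod_cast hB0 u
    rw [h3]
    field_simp
    ring
  have h3 : S.D.apply (F' - F) S.vac = 0 := by
    rw [map_sub, ContinuousLinearMap.sub_apply, h1, sub_self]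
  rw [h2, apply_mul, map_sub, map_one] at h3
  exact h3

/-- (A) adjoint bound. -/
theorem norm_star_vac_le (S : ModularDatum H) (a : H →L[ℂ] H) (ha : a ∈ S.M) (p q : ℝ)
    (hsupp : S.D.SupportedIn (Set.Icc p q) (a S.vac)) :
    ‖star a S.vac‖ ≤ Real.exp (q / 2) * ‖a S.vac‖ := by
  have hh := halfExp_of_mem S a ha
  set y := S.J (star a S.vac) with hy
  have h1 : ∀ k : BoundedContinuousFunction ℝ ℂ, (∀ u ∈ Set.Icc p q, k u = 0) →
      S.D.apply k y = 0 := by
    intro k hk
    refine eq_zero_of_compact S.D _ fun f hf => ?_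
    rw [← apply_mul]
    have hfk : HasCompactSupport (f * k : BoundedContinuousFunction ℝ ℂ) := by
      rw [BoundedContinuousFunction.coe_mul]; exact hf.mul_right
    obtain ⟨F, hF, hFc⟩ := exists_mul_compact _ continuous_expHalf (f * k) hfk
    rw [hh (f * k) F (fun u => by rw [hF u]; ring)]
    refine hsupp F fun u hu => ?_
    rw [hF u, BoundedContinuousFunction.coe_mul, Pi.mul_apply, hk u hu]
    simp
  let f : BoundedContinuousFunction ℝ ℂ := BoundedContinuousFunction.ofNormedAddCommGroup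
    (fun u : ℝ => ((min 1 (Real.exp ((q - u) / 2)) : ℝ) : ℂ)) (by fun_prop) 1 (fun u => by
      rw [Complex.norm_real, Real.norm_eq_abs, abs_of_nonneg (by positivity)]
      exact min_le_left _ _)
  let g : BoundedContinuousFunction ℝ ℂ := BoundedContinuousFunction.ofNormedAddCommGroup
    (fun u : ℝ => ((min (Real.exp (u / 2)) (Real.exp (q / 2)) : ℝ) : ℂ)) (by fun_prop)
    (Real.exp (q / 2)) (fun u => by
      rw [Complex.norm_real, Real.norm_eq_abs, abs_of_nonneg (by positivity)]
      exact min_le_right _ _)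
  have hfg : ∀ u, g u = f u * ((Real.exp (u / 2) : ℝ) : ℂ) := by
    intro u
    change ((min (Real.exp (u / 2)) (Real.exp (q / 2)) : ℝ) : ℂ) =
      ((min 1 (Real.exp ((q - u) / 2)) : ℝ) : ℂ) * ((Real.exp (u / 2) : ℝ) : ℂ)
    rw [← Complex.ofReal_mul, min_mul_of_nonneg _ _ (Real.exp_pos _).le, one_mul,
      ← Real.exp_add]
    congr 4; ring
  have h2 : S.D.apply (1 - f) y = 0 := by
    refine h1 _ fun u hu => ?_
    change (1 : ℂ) - ((min 1 (Real.exp ((q - u) / 2)) : ℝ) : ℂ) = 0
    rw [min_eq_left]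
    · simp
    · rw [← Real.exp_zero]
      exact Real.exp_le_exp.2 (by have := hu.2; linarith)
  rw [map_sub, map_one, ContinuousLinearMap.sub_apply, sub_eq_zero,
    ContinuousLinearMap.one_apply] at h2
  have h3 : ‖y‖ ≤ Real.exp (q / 2) * ‖a S.vac‖ := by
    rw [h2, hh f g hfg]
    refine (apply_norm_le' _ _ _).trans ?_
    refine mul_le_mul_of_nonneg_right ?_ (norm_nonneg _)
    exact BoundedContinuousFunction.norm_ofNormedAddCommGroup_le _ (Real.exp_pos _).le _
  rwa [hy, S.J.norm_map] at h3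

end Crest.Agent.R084
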