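import Crest.Agent.R084.Calc
import Crest.Agent.R084.Vac
import Crest.Agent.R084.Smear
import Crest.Agent.R084.Erg1
import Crest.Agent.R084.Erg2

/-! R084: mean ergodic theorem for the modular flow of an ergodic state. -/

set_option autoImplicit false

namespace Crest.Agent.R084

open Filter MeasureTheory Crest.OpAlg
open scoped Topology InnerProductSpace

variable {H : Type*} [NormedAddCommGroup H] [InnerProductSpace ℂ H] [CompleteSpace H]

theorem wavg_clmC (k : ℕ) (L : H →L[ℂ] H) (f : ℝ → H) (hf : Continuous f) :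
    wavg k (fun t => L (f t)) = L (wavg k f) :=
  wavg_clm k (L.restrictScalars ℝ) f hf

theorem exists_opAvg (F : ℝ → H →L[ℂ] H) (hF : ∀ z, Continuous fun t => F t z) (C : ℝ)
    (hC0 : 0 ≤ C) (hC : ∀ t z, ‖F t z‖ ≤ C * ‖z‖) :
    ∃ A : ℕ → H →L[ℂ] H, (∀ k z, A k z = wavg k (fun t => F t z)) ∧
      ∀ k z, ‖A k z‖ ≤ C * ‖z‖ := by
  have hb : ∀ k z, ‖wavg k (fun t => F t z)‖ ≤ C * ‖z‖ := fun k z =>
    wavg_norm_le k _ _ (by positivity) (fun t => hC t z)
  refine ⟨fun k => LinearMap.mkContinuous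
    { toFun := fun z => wavg k (fun t => F t z)
      map_add' := fun x y => ?_
      map_smul' := fun c x => ?_ } C (fun z => hb k z), fun k z => rfl, fun k z => hb k z⟩
  · simp only [map_add]
    exact wavg_add k _ _ (hF x) (hF y)
  · simp only [map_smul, RingHom.id_apply]
    exact wavg_clmC k (c • ContinuousLinearMap.id ℂ H) _ (hF x)

theorem exists_lim_of_dense (A : ℕ → H →L[ℂ] H) (C : ℝ) (hC0 : 0 ≤ C)
    (hC : ∀ k z, ‖A k z‖ ≤ C * ‖z‖)
    (hd : ∀ (x : H) (ε : ℝ), 0 < ε → ∃ z, ‖z - x‖ < ε ∧ ∃ w, Tendsto (fun k => A k z) atTop (𝓝 w)) :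
    ∃ B : H →L[ℂ] H, ∀ z, Tendsto (fun k => A k z) atTop (𝓝 (B z)) := by
  have hlim : ∀ x, ∃ y, Tendsto (fun k => A k x) atTop (𝓝 y) := by
    intro x
    apply cauchySeq_tendsto_of_complete
    rw [Metric.cauchySeq_iff']
    intro ε hε
    obtain ⟨z, hz, w, hw⟩ := hd x (ε / (3 * (C + 1))) (by positivity)
    obtain ⟨N, hN⟩ := Metric.cauchySeq_iff'.mp hw.cauchySeq (ε / 3) (by positivity)
    refine ⟨N, fun n hn => ?_⟩
    have h1 := hN n hn
    rw [dist_eq_norm] at h1 ⊢
    have h2 : ∀ k, ‖A k (z - x)‖ < ε / 3 := by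
      intro k
      refine (hC k _).trans_lt ?_
      have h3 : C * ‖z - x‖ ≤ (C + 1) * ‖z - x‖ := by
        apply mul_le_mul_of_nonneg_right _ (norm_nonneg _); linarith
      refine h3.trans_lt ?_
      have h4 : (C + 1) * ‖z - x‖ < (C + 1) * (ε / (3 * (C + 1))) := by
        apply mul_lt_mul_of_pos_left hz; positivity
      refine h4.trans_le (le_of_eq ?_)
      field_simp
    have h5 : A n x - A N x = (A n z - A N z) - A n (z - x) + A N (z - x) := by
      simp only [map_sub]; abel
    rw [h5]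
    calc _ ≤ ‖(A n z - A N z)‖ + ‖A n (z - x)‖ + ‖A N (z - x)‖ :=
          (norm_add_le _ _).trans (add_le_add_left (norm_sub_le _ _) _)
      _ < ε / 3 + ε / 3 + ε / 3 := add_lt_add (add_lt_add h1 (h2 n)) (h2 N)
      _ = ε := by ring
  choose f hf using hlim
  exact ⟨continuousLinearMapOfTendsto A (tendsto_pi_nhds.mpr hf), fun z => hf z⟩

/-- von Neumann's mean ergodic theorem for the one-parameter group `e^{itD}`. -/
theorem wave_mean (D : LineCalculus H) (x : H) : ∃ y, (∀ t, D.wave t y = y) ∧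
    Tendsto (fun k => wavg k (fun t => D.wave t x)) atTop (𝓝 y) := by
  obtain ⟨A, hA, hAn⟩ := exists_opAvg (fun t => D.wave t) (continuous_wave_apply D) 1 zero_le_one
    (fun t z => by rw [norm_wave, one_mul])
  let L : Submodule ℂ H :=
    { carrier := {x | Tendsto (fun k => A k x) atTop (𝓝 0)}
      add_mem' := fun {a b} ha hb => by
        have h := Tendsto.add (f := fun k => A k a) (g := fun k => A k b) ha hb
        simpa only [Set.mem_ofPred_eq, map_add, add_zero] using h
      zero_mem' := by simp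
      smul_mem' := fun c a ha => by
        have h := Tendsto.const_smul (f := fun k => A k a) ha c
        simpa only [Set.mem_ofPred_eq, map_smul, smul_zero] using h }
  have hLmem : ∀ x, x ∈ L ↔ Tendsto (fun k => A k x) atTop (𝓝 0) := fun x => Iff.rfl
  have hLcl : IsClosed (L : Set H) := by
    rw [← closure_subset_iff_isClosed]
    intro x hx
    rw [Metric.mem_closure_iff] at hx
    rw [SetLike.mem_coe, hLmem, Metric.tendsto_atTop]
    intro ε hε
    obtain ⟨z, hz, hxz⟩ := hx (ε / 2) (by positivity)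
    rw [SetLike.mem_coe, hLmem, Metric.tendsto_atTop] at hz
    obtain ⟨N, hN⟩ := hz (ε / 2) (by positivity)
    refine ⟨N, fun n hn => ?_⟩
    have h1 := hN n hn
    rw [dist_zero_right] at h1 ⊢
    have h2 : A n x = A n (x - z) + A n z := by rw [← map_add, sub_add_cancel]
    rw [h2]
    have h3 := hAn n (x - z)
    rw [one_mul, ← dist_eq_norm] at h3
    exact (norm_add_le _ _).trans_lt (by linarith)
  have : CompleteSpace L := hLcl.completeSpace_coe
  have hU : ∀ (s : ℝ) (y : H), D.wave s y - y ∈ L := by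
    intro s y
    rw [hLmem]
    have h1 := wavg_shift (fun t => D.wave t y) (continuous_wave_apply D y) ‖y‖
      (fun t => (norm_wave D t y).le) s
    refine h1.congr fun k => ?_
    rw [map_sub, hA, hA]
    congr 2
    ext t
    rw [wave_add]; rfl
  set q := x - L.starProjection x with hq
  have hqL : q ∈ Lᗮ := L.sub_starProjection_mem_orthogonal x
  have hqfix : ∀ t, D.wave t q = q := by
    intro t
    have h1 : ∀ y : H, ⟪y, D.wave t q - q⟫_ℂ = 0 := by
      intro y
      have h2 := (Submodule.mem_orthogonal L q).mp hqL _ (hU (-t) y)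
      rw [inner_sub_left] at h2
      rw [inner_sub_right, ← h2]
      congr 1
      rw [← inner_wave_wave D t (D.wave (-t) y) q, wave_apply_neg]
    have h3 := h1 (D.wave t q - q)
    rw [inner_self_eq_zero, sub_eq_zero] at h3
    exact h3
  refine ⟨q, hqfix, ?_⟩
  have h1 : Tendsto (fun k => A k (L.starProjection x)) atTop (𝓝 0) :=
    (hLmem _).mp (Submodule.starProjection_apply_mem L x)
  have h2 : Tendsto (fun k => A k q) atTop (𝓝 q) := by
    refine tendsto_const_nhds.congr' ?_
    filter_upwards [eventually_ge_atTop 1] with k hk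
    rw [hA]
    simp_rw [hqfix]
    rw [wavg_const k hk]
  have h3 := h1.add h2
  rw [zero_add] at h3
  refine h3.congr fun k => ?_
  rw [← map_add, hq, add_sub_cancel, hA]

theorem flow_add (S : ModularDatum H) (b : H →L[ℂ] H) (s t : ℝ) :
    S.flow (s + t) b = S.flow s (S.flow t b) := by
  simp only [ModularDatum.flow, wave_add, neg_add_rev, mul_assoc]

/-- (E) mean ergodic theorem. -/
theorem mean_ergodic (S : ModularDatum H) (herg : S.Ergodic) (b : H →L[ℂ] H) (hb : b ∈ S.M) :
    Tendsto (fun k : ℕ => ⨍ t in Set.Icc (-(k : ℝ)) (k : ℝ), S.D.wave t (b S.vac)) atTop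
      (𝓝 (⟪S.vac, b S.vac⟫_ℂ • S.vac)) := by
  change Tendsto (fun k : ℕ => wavg k (fun t => S.D.wave t (b S.vac))) atTop _
  obtain ⟨y, hyfix, hy⟩ := wave_mean S.D (b S.vac)
  obtain ⟨A, hA, hAn⟩ := exists_opAvg (fun t => S.flow t b) (continuous_flow S b) ‖b‖
    (norm_nonneg _) (fun t z => norm_flow_le S t b z)
  have hcomm : ∀ x' : H →L[ℂ] H, (∀ a ∈ S.M, a * x' = x' * a) → ∀ k z,
      A k (x' z) = x' (A k z) := by
    intro x' hx' k z
    rw [hA, hA, ← wavg_clmC k x' _ (continuous_flow S b z)]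
    congr 1
    ext t
    have h1 := hx' _ (S.flow_mem t b hb)
    exact congrArg (fun f : H →L[ℂ] H => f z) h1
  obtain ⟨B, hB⟩ := exists_lim_of_dense A ‖b‖ (norm_nonneg _) hAn (fun x ε hε => by
    obtain ⟨x', hx', hxx⟩ := commutant_dense S x ε hε
    refine ⟨x' S.vac, hxx, x' y, ?_⟩
    simp_rw [hcomm x' hx', hA, flow_vac]
    exact (x'.continuous.tendsto y).comp hy)
  have hBM : B ∈ S.M := by
    apply mem_of_commute_commutant
    intro x' hx'
    ext z
    have h1 := hB (x' z)
    simp_rw [hcomm x' hx'] at h1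
    have h2 : Tendsto (fun k => x' (A k z)) atTop (𝓝 (x' (B z))) :=
      (x'.continuous.tendsto _).comp (hB z)
    exact tendsto_nhds_unique h2 h1
  have hBflow : ∀ t, S.flow t B = B := by
    intro s
    ext z
    have h1 : Tendsto (fun k => S.D.wave s (A k (S.D.wave (-s) z))) atTop (𝓝 (S.flow s B z)) :=
      ((S.D.wave s).continuous.tendsto _).comp (hB (S.D.wave (-s) z))
    have h2 := wavg_shift (fun t => S.flow t b z) (continuous_flow S b z) (‖b‖ * ‖z‖)
      (fun t => norm_flow_le S t b z) s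
    have h3 := h2.add (hB z)
    rw [zero_add] at h3
    refine tendsto_nhds_unique h1 (h3.congr fun k => ?_)
    rw [hA, hA, sub_add_cancel, ← wavg_clmC k (S.D.wave s) _ (continuous_flow S b _)]
    congr 1
    ext t
    rw [add_comm, flow_add]
    rfl
  obtain ⟨c, hc⟩ := herg B hBM hBflow
  have hyB : y = c • S.vac := by
    have h1 := hB S.vac
    rw [hc] at h1
    refine tendsto_nhds_unique hy (h1.congr fun k => ?_)
    rw [hA]
    simp_rw [flow_vac]
  have hcv : ⟪S.vac, b S.vac⟫_ℂ = c := by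
    have h1 : Tendsto (fun k => ⟪S.vac, wavg k (fun t => S.D.wave t (b S.vac))⟫_ℂ) atTop
        (𝓝 ⟪S.vac, y⟫_ℂ) := tendsto_const_nhds.inner hy
    have h2 : ∀ k ≥ 1, ⟪S.vac, wavg k (fun t => S.D.wave t (b S.vac))⟫_ℂ =
        ⟪S.vac, b S.vac⟫_ℂ := by
      intro k hk
      have h3 := wavg_clm k ((innerSL ℂ S.vac).restrictScalars ℝ)
        (fun t => S.D.wave t (b S.vac)) (continuous_wave_apply _ _)
      have h4 : ⟪S.vac, wavg k (fun t => S.D.wave t (b S.vac))⟫_ℂ =
        wavg k (fun t => ⟪S.vac, S.D.wave t (b S.vac)⟫_ℂ) := h3.symm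
      rw [h4]
      have h5 : ∀ t, ⟪S.vac, S.D.wave t (b S.vac)⟫_ℂ = ⟪S.vac, b S.vac⟫_ℂ := by
        intro t
        have h6 := inner_wave_wave S.D t S.vac (b S.vac)
        rwa [wave_vac] at h6
      simp_rw [h5]
      exact wavg_const k hk _
    have h3 : Tendsto (fun k => ⟪S.vac, wavg k (fun t => S.D.wave t (b S.vac))⟫_ℂ) atTop
        (𝓝 ⟪S.vac, b S.vac⟫_ℂ) := by
      refine tendsto_const_nhds.congr' ?_
      filter_upwards [eventually_ge_atTop 1] with k hk
      exact (h2 k hk).symm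
    rw [tendsto_nhds_unique h3 h1, hyB, inner_smul_right, inner_self_eq_norm_sq_to_K, S.norm_vac]
    simp
  rw [hcv, ← hyB]
  exact hy

end Crest.Agent.R084
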