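import Crest.Agent.R084.Core2
import Crest.Agent.R084.Conv
import Crest.Agent.R084.Erg3

/-! R084: final assembly. -/

set_option autoImplicit false
set_option linter.unusedSectionVars false

namespace Crest.Agent.R084

open Filter MeasureTheory Crest.OpAlg
open scoped Topology InnerProductSpace

variable {H : Type*} [NormedAddCommGroup H] [InnerProductSpace ℂ H] [CompleteSpace H]

theorem exists_one (S : ModularDatum H) (herg : S.Ergodic) (CK : ℝ)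
    (hker : ∀ (s δ : ℝ), 0 < δ →
      ∃ (g : ℝ → ℂ) (G : BoundedContinuousFunction ℝ ℂ),
      Integrable g ∧ (∫ t, ‖g t‖) ≤ CK ∧
      (∀ u : ℝ, G u = ∫ t, g t * Complex.exp (Complex.I * ((t * u : ℝ) : ℂ))) ∧
      (∀ u, ‖G u‖ ≤ 1) ∧
      (∀ u ∈ Set.Icc (s - δ) (s + δ), G u = 1) ∧
      (∀ u, u ∉ Set.Icc (s - 2 * δ) (s + 2 * δ) → G u = 0))
    (T : H →L[ℂ] H) (s δ B : ℝ) (hδ : 0 < δ) (hB : s + 2 * δ ≤ B)
    (h : H) (hh : ‖h‖ = 1) (hband : S.D.SupportedIn (Set.Icc (s - δ) (s + δ)) h)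
    (c : ℝ) (hc : 0 < c)
    (hfreq : ∃ᶠ k : ℕ in atTop, c ≤ windowMean (fun t : ℝ => ‖T (S.D.wave t h)‖ ^ 2) k)
    (K : ℝ) (hK : 0 < K)
    (hKc : (2 * ‖T‖ ^ 2 / K) * (25 + (16 * Real.exp B + 2)) ≤ c / 8) :
    ∃ z ∈ S.M, ‖z‖ ≤ CK * Real.sqrt K ∧
      S.D.SupportedIn (Set.Icc (s - 4 * δ) (s + 4 * δ)) (z S.vac) ∧
      c / 32 ≤ ‖T (z S.vac)‖ ^ 2 := by
  obtain ⟨g₁, G₁, hg₁, -, hG₁, hG₁n, hG₁1, hG₁0⟩ := hker s δ hδ
  obtain ⟨g₂, G₂, hg₂, hg₂C, hG₂, hG₂n, hG₂1, hG₂0⟩ := hker s (2 * δ) (by positivity)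
  have e4 : 2 * (2 * δ) = 4 * δ := by ring
  rw [e4] at hG₂0
  -- approximate `h`
  set ε₁ : ℝ := min 1 (Real.sqrt (c / 4) / (‖T‖ + 1)) with hε₁
  have hε₁0 : 0 < ε₁ := by
    refine lt_min one_pos (div_pos (Real.sqrt_pos.2 (by positivity)) (by positivity))
  have hε₁T : ‖T‖ * ε₁ ≤ Real.sqrt (c / 4) := by
    calc ‖T‖ * ε₁ ≤ (‖T‖ + 1) * (Real.sqrt (c / 4) / (‖T‖ + 1)) :=
          mul_le_mul (by linarith) (min_le_right _ _) hε₁0.le (by positivity)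
      _ = Real.sqrt (c / 4) := by field_simp
  obtain ⟨b, hb⟩ : ∃ b : S.M, ‖(b : H →L[ℂ] H) S.vac - h‖ < ε₁ := by
    have := S.cyclic h
    obtain ⟨_, ⟨b, rfl⟩, hb⟩ := Metric.mem_closure_iff.1 this ε₁ hε₁0
    exact ⟨b, by rwa [dist_comm, dist_eq_norm] at hb⟩
  obtain ⟨a, ha, -, haint⟩ := exists_smear S g₁ hg₁ b b.2
  have hav : a S.vac = S.D.apply G₁ ((b : H →L[ℂ] H) S.vac) :=
    smear_vac S g₁ hg₁ G₁ hG₁ a b haint
  have hasupp : S.D.SupportedIn (Set.Icc (s - 2 * δ) (s + 2 * δ)) (a S.vac) := by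
    rw [hav]; exact supportedIn_apply _ _ _ hG₁0 _
  have hah : ‖a S.vac - h‖ ≤ ε₁ := by
    have h1 : S.D.apply G₁ h = h := apply_eq_self _ _ _ hG₁1 _ hband
    have h2 : a S.vac - h = S.D.apply G₁ ((b : H →L[ℂ] H) S.vac - h) := by
      rw [map_sub, h1, hav]
    rw [h2]
    refine (apply_norm_le' _ _ _).trans ?_
    have : ‖G₁‖ ≤ 1 := (BoundedContinuousFunction.norm_le zero_le_one).2 hG₁n
    calc _ ≤ 1 * ‖(b : H →L[ℂ] H) S.vac - h‖ := mul_le_mul_of_nonneg_right this (norm_nonneg _)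
      _ ≤ ε₁ := by rw [one_mul]; exact hb.le
  have ha2 : ‖a S.vac‖ ≤ 2 := by
    have h1 : a S.vac = (a S.vac - h) + h := by abel
    rw [h1]
    refine (norm_add_le _ _).trans ?_
    rw [hh]
    have : ε₁ ≤ 1 := min_le_left _ _
    linarith
  have hE : ‖star a S.vac‖ ^ 2 ≤ 4 * Real.exp B := by
    have h1 := norm_star_vac_le S a ha _ _ hasupp
    have h2 : ‖star a S.vac‖ ≤ Real.exp (B / 2) * 2 := by
      refine h1.trans (mul_le_mul (Real.exp_le_exp.2 (by linarith)) ha2 (norm_nonneg _)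
        (Real.exp_pos _).le)
    calc _ ≤ (Real.exp (B / 2) * 2) ^ 2 := pow_le_pow_left₀ (norm_nonneg _) h2 2
      _ = 4 * Real.exp B := by
        rw [mul_pow, ← Real.exp_nat_mul]
        push_cast
        rw [mul_div_cancel₀ B (two_ne_zero)]
        ring
  -- windows for `a ξ`
  have hcont : ∀ y : H, Continuous fun t : ℝ => ‖T (S.D.wave t y)‖ ^ 2 := fun y =>
    ((T.continuous.comp (continuous_wave_apply S.D y)).norm).pow 2
  have hfreq' : ∃ᶠ k : ℕ in atTop,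
      c / 4 ≤ windowMean (fun t : ℝ => ‖T (S.D.wave t (a S.vac))‖ ^ 2) k := by
    refine (hfreq.and_eventually (eventually_ge_atTop 1)).mono ?_
    rintro k ⟨hk, hk1⟩
    have h1 : windowMean (fun t : ℝ => ‖T (S.D.wave t h)‖ ^ 2) k ≤
        wavg k (fun t : ℝ => 2 * ‖T (S.D.wave t (a S.vac))‖ ^ 2 + c / 2) := by
      refine wavg_mono k _ _ (hcont h) ?_ fun t => ?_
      · exact ((hcont (a S.vac)).const_mul 2 |>.add continuous_const)
      · have h2 : T (S.D.wave t h) = T (S.D.wave t (a S.vac)) +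
            T (S.D.wave t (h - a S.vac)) := by
          rw [← map_add, ← map_add, add_sub_cancel]
        have h3 : ‖T (S.D.wave t (h - a S.vac))‖ ≤ Real.sqrt (c / 4) := by
          refine (T.le_opNorm _).trans ?_
          rw [norm_wave, norm_sub_rev]
          exact (mul_le_mul_of_nonneg_left hah (norm_nonneg _)).trans hε₁T
        have h4 : ‖T (S.D.wave t h)‖ ≤ ‖T (S.D.wave t (a S.vac))‖ + Real.sqrt (c / 4) := by
          rw [h2]; exact (norm_add_le _ _).trans (add_le_add le_rfl h3)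
        have h5 := pow_le_pow_left₀ (norm_nonneg _) h4 2
        have h6 : Real.sqrt (c / 4) ^ 2 = c / 4 := Real.sq_sqrt (by positivity)
        nlinarith [sq_nonneg (‖T (S.D.wave t (a S.vac))‖ - Real.sqrt (c / 4))]
    have h2 : wavg k (fun t : ℝ => 2 * ‖T (S.D.wave t (a S.vac))‖ ^ 2 + c / 2) =
        2 * windowMean (fun t : ℝ => ‖T (S.D.wave t (a S.vac))‖ ^ 2) k + c / 2 := by
      rw [wavg_add k _ _ ((hcont (a S.vac)).const_mul 2) continuous_const,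
        wavg_const k hk1]
      congr 1
      rw [wavg, windowMean, average_eq, average_eq, integral_const_mul, smul_eq_mul, smul_eq_mul]
      ring
    rw [h2] at h1
    linarith
  -- mean ergodic theorem
  have hm1 := mean_ergodic S herg (star a * a) (mul_mem (star_mem ha) ha)
  have hm2 := mean_ergodic S herg (a * star a) (mul_mem ha (star_mem ha))
  have hi1 : ⟪S.vac, (star a * a) S.vac⟫_ℂ = ((‖a S.vac‖ ^ 2 : ℝ) : ℂ) := by
    change ⟪S.vac, star a (a S.vac)⟫_ℂ = _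
    rw [ContinuousLinearMap.star_eq_adjoint, ContinuousLinearMap.adjoint_inner_right,
      inner_self_eq_norm_sq_to_K]
    simp
  have hi2 : ⟪S.vac, (a * star a) S.vac⟫_ℂ = ((‖star a S.vac‖ ^ 2 : ℝ) : ℂ) := by
    change ⟪S.vac, a (star a S.vac)⟫_ℂ = _
    rw [← ContinuousLinearMap.adjoint_inner_left, ← ContinuousLinearMap.star_eq_adjoint,
      inner_self_eq_norm_sq_to_K]
    simp
  rw [hi1] at hm1
  rw [hi2] at hm2
  -- choose approximations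
  obtain ⟨x', hx', hx'a⟩ := commutant_dense S (a S.vac) (1 / (4 * (‖a‖ ^ 2 + 1)))
    (by positivity)
  set ε' : ℝ := 1 / (4 * (‖a‖ ^ 2 + 1)) with hε'
  set ε : ℝ := min (min 1 (1 / (2 * (‖x'‖ + 1)))) (c / 16) with hε
  have hε0 : 0 < ε := by
    refine lt_min (lt_min one_pos (by positivity)) (by positivity)
  have hε1 : ε ≤ 1 := (min_le_left _ _).trans (min_le_left _ _)
  have hεc : ε ≤ c / 16 := min_le_right _ _
  have hεx : ‖x'‖ * ε ≤ 1 / 2 := by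
    have h1 : ε ≤ 1 / (2 * (‖x'‖ + 1)) := (min_le_left _ _).trans (min_le_right _ _)
    calc ‖x'‖ * ε ≤ (‖x'‖ + 1) * (1 / (2 * (‖x'‖ + 1))) :=
          mul_le_mul (by linarith) h1 hε0.le (by positivity)
      _ = 1 / 2 := by field_simp
  have hε'a : 2 * ‖a‖ ^ 2 * ε' ≤ 1 / 2 := by
    calc 2 * ‖a‖ ^ 2 * ε' ≤ 2 * (‖a‖ ^ 2 + 1) * ε' := by
          refine mul_le_mul_of_nonneg_right (by linarith) (by positivity)
      _ = 1 / 2 := by rw [hε']; field_simp; norm_num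
  obtain ⟨ι, _, w, τ, hw0, hw1, hwT, hwx, hwy⟩ := exists_convex S.D
    (fun t : ℝ => ‖T (S.D.wave t (a S.vac))‖ ^ 2) (hcont _)
    ⟨(‖T‖ * ‖a S.vac‖) ^ 2, fun t => by
      rw [abs_of_nonneg (by positivity)]
      refine pow_le_pow_left₀ (norm_nonneg _) ?_ 2
      refine (T.le_opNorm _).trans ?_
      rw [norm_wave]⟩ _ _ _ _ (c / 4) (by positivity) hfreq' hm1 hm2 ε hε0
  obtain ⟨v, hvM, hvs, hvT⟩ := exists_good_v S T (Set.Icc (s - 2 * δ) (s + 2 * δ)) a ha hasupp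
    ha2 (Real.exp B) hE w τ hw0 hw1 x' hx' (c / 4 - ε) ε ε' (2 * ‖T‖ ^ 2 / K) (by positivity)
    hε1 (by linarith) hx'a.le hwT hwx hwy
  obtain ⟨z, hzM, hzn, hzs, hzT⟩ := exists_bounded S T s δ v hvM hvs K hK CK g₂ G₂ hg₂ hg₂C hG₂
    hG₂n hG₂1 hG₂0
  refine ⟨z, hzM, hzn, hzs, ?_⟩
  linarith

/-- from a positive ultrafilter mean to positive windows -/
theorem freq_of_ultraMean (ω : Ultrafilter ℕ) (hω : (ω : Filter ℕ) ≤ Filter.atTop)
    (f : ℝ → ℝ) (C : ℝ) (hC : ∀ t, |f t| ≤ C) (c : ℝ) (hc : 0 < c)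
    (hm : c ≤ ultraMean ω f) : ∃ᶠ k : ℕ in atTop, c / 2 ≤ windowMean f k := by
  have hC0 : 0 ≤ C := (abs_nonneg _).trans (hC 0)
  have hbd : ∀ k, windowMean f k ∈ Set.Icc (-C) C := by
    intro k
    have := wavg_norm_le k f C hC0 hC
    rw [Real.norm_eq_abs] at this
    exact abs_le.1 this
  obtain ⟨L, -, hL⟩ := (isCompact_Icc (a := -C) (b := C)).ultrafilter_le_nhds
    (ω.map (windowMean f)) (by
      rw [Filter.le_principal_iff]
      exact Filter.mem_map.2 (Filter.univ_mem' hbd))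
  have hL' : Tendsto (windowMean f) (ω : Filter ℕ) (𝓝 L) := hL
  have hlim : ultraMean ω f = L := hL'.limUnder_eq
  rw [hlim] at hm
  have hev : ∀ᶠ k in (ω : Filter ℕ), c / 2 < windowMean f k :=
    hL'.eventually (lt_mem_nhds (by linarith))
  exact (hev.frequently.filter_mono hω).mono fun k hk => hk.le

theorem bounded_recovery (S : ModularDatum H) (herg : S.Ergodic)
    (ω : Ultrafilter ℕ) (hω : (ω : Filter ℕ) ≤ Filter.atTop)
    (T : H →L[ℂ] H) (s : ℝ) (δ : ℕ → ℝ) (hδ : ∀ n, 0 < δ n)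
    (hδ0 : Filter.Tendsto δ Filter.atTop (nhds 0))
    (h : ℕ → H) (hh : ∀ n, ‖h n‖ = 1)
    (hband : ∀ n, S.D.SupportedIn (Set.Icc (s - δ n) (s + δ n)) (h n))
    (hpos : ∃ c : ℝ, 0 < c ∧ ∃ᶠ n in Filter.atTop,
      c ≤ Crest.OpAlg.ultraMean ω (fun t : ℝ => ‖T (S.D.wave t (h n))‖ ^ 2)) :
    ∃ (n' : ℕ → ℕ) (v : ℕ → (H →L[ℂ] H)) (C η : ℝ), StrictMono n' ∧ 0 < η ∧
      ∀ j : ℕ, v j ∈ S.M ∧ ‖v j‖ ≤ C ∧ η ≤ ‖T (v j S.vac)‖ ∧
        S.D.SupportedIn (Set.Icc (s - 4 * δ (n' j)) (s + 4 * δ (n' j))) (v j S.vac) := by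
  obtain ⟨c, hc, hfr⟩ := hpos
  obtain ⟨CK, -, hker⟩ := exists_kernel
  obtain ⟨n', hn', hn'c⟩ := Filter.extraction_of_frequently_atTop hfr
  obtain ⟨D₀, hD₀⟩ := hδ0.bddAbove_range
  have hδD : ∀ n, δ n ≤ D₀ := fun n => hD₀ ⟨n, rfl⟩
  set B : ℝ := s + 2 * D₀ with hB
  set K : ℝ := 32 * ‖T‖ ^ 2 * (25 + (16 * Real.exp B + 2)) / c + 1 with hK
  have hexp : 0 < Real.exp B := Real.exp_pos _
  have hK0 : 0 < K := by positivity
  have hKc : (2 * ‖T‖ ^ 2 / K) * (25 + (16 * Real.exp B + 2)) ≤ c / 2 / 8 := by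
    rw [div_mul_eq_mul_div, div_le_iff₀ hK0, hK]
    have : c / 2 / 8 * (32 * ‖T‖ ^ 2 * (25 + (16 * Real.exp B + 2)) / c + 1) =
        2 * ‖T‖ ^ 2 * (25 + (16 * Real.exp B + 2)) + c / 16 := by
      field_simp
      ring
    rw [this]
    linarith
  have hmain : ∀ j, ∃ z ∈ S.M, ‖z‖ ≤ CK * Real.sqrt K ∧
      S.D.SupportedIn (Set.Icc (s - 4 * δ (n' j)) (s + 4 * δ (n' j))) (z S.vac) ∧
      c / 2 / 32 ≤ ‖T (z S.vac)‖ ^ 2 := by
    intro j
    refine exists_one S herg CK hker T s (δ (n' j)) B (hδ _) ?_ (h (n' j)) (hh _) (hband _)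
      (c / 2) (by positivity) ?_ K hK0 hKc
    · have := hδD (n' j); rw [hB]; linarith
    · refine freq_of_ultraMean ω hω _ (‖T‖ ^ 2) (fun t => ?_) c hc (hn'c j)
      rw [abs_of_nonneg (by positivity)]
      refine pow_le_pow_left₀ (norm_nonneg _) ?_ 2
      refine (T.le_opNorm _).trans ?_
      rw [norm_wave, hh, mul_one]
  choose z hzM hzn hzs hzT using hmain
  refine ⟨n', z, CK * Real.sqrt K, Real.sqrt (c / 2 / 32), hn', Real.sqrt_pos.2 (by positivity),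
    fun j => ⟨hzM j, hzn j, ?_, hzs j⟩⟩
  exact (Real.sqrt_le_iff).2 ⟨norm_nonneg _, hzT j⟩

end Crest.Agent.R084
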